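import Vale.Agent.P287Q.Lam.Sy

/-! Towers: non-degeneracy of the localised pairing, parity, the diagonal, examples. -/

set_option linter.unusedSectionVars false
set_option linter.style.haveILetI false

namespace Vale.Agent.P269.LG

open Set Function Topology TensorProduct Vale.Agent.P291Z Vale.Agent.P269.Ch
  Vale.Agent.P269.Orb Vale.Agent.P269.Loc

variable {σ : Type} [Fintype σ] {K : Type} [Field K] [Algebra ℂ K] {χ : R σ →ₐ[ℂ] K}
  {A : Type} [TopologicalSpace A] [Nice A] [CompactSpace A] {X X' : ℕ → Type}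
  [∀ M, TopologicalSpace (X M)] [∀ M, Nice (X M)] [∀ M, TopologicalSpace (X' M)] [∀ M, Nice (X' M)]
  {k : ∀ M, C(X M, X (M + 1))} {b : ∀ M, C(X M, Bs σ M)} {i : ∀ M, C(A × Bs σ M, X M)} {d : ℤ}
  {β : ∀ M, BM (X M)} {β' : ∀ M, BM (X' M)} {I : K ⊗[ℂ] H A →ₗ[K] K}

theorem pb_of_id {L : Type} [CommRing L] [Algebra ℂ L] {φ : C(A, A)} (h : ∀ x, φ x = x)
    (y : L ⊗[ℂ] H A) : pb L φ y = y := by
  induction y with
  | zero => rfl
  | add a c ha hc => rw [map_add, ha, hc]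
  | tmul c a => rw [pb_tmul, H.map_id h]

theorem sy_triv : Sy χ (incA A) (fun M => .id (A × Bs σ M)) fun _ => .snd where
  emb := isClosedEmbedding_incA
  sq _ _ := rfl
  car _ z := fun ⟨y, e⟩ => ⟨(z.1, y), Prod.ext rfl e⟩
  b_i _ _ := rfl
  k_i _ _ := rfl
  cut := ⟨1, fun _ => 1, by simp, ⟨fun _ => .id, fun _ => .of_supp cocycle_one fun x _ => ⟨x, rfl⟩,
    fun _ => ⟨0, isDeg_one⟩, fun M => by
      rw [map_one, hcls_one, ← Algebra.TensorProduct.one_def, map_one]⟩,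
    fun M => ⟨cocycle_one, fun x _ => ⟨x, rfl⟩, by rw [hcls_one, map_one]⟩⟩

theorem BM_ext {Y : Type} [TopologicalSpace Y] [CompactSpace Y] {β γ : BM Y}
    (h : ∀ c, intg β c = intg γ c) : β = γ :=
  BM.ext_ev fun _ ha => (intg_hcls _ ha.2).symm.trans ((h _).trans (intg_hcls _ ha.2))

theorem exists_triv (l : H A →ₗ[ℂ] ℂ) (n : ℤ) : ∃ γ, IsB (incA A) (fun _ => .snd) n γ ∧
    IsLoc χ γ (fun M => .id (A × Bs σ M)) (intT K (l ∘ₗ H.comp n)) := by
  choose φ h1 h2 using exists_fB (σ := σ)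
  let β₀ : BM A := (l ∘ₗ H.comp n) ∘ₗ Fl.toH
  have h3 : ∀ c, intg β₀ c = (l ∘ₗ H.comp n) c := fun c => by
    obtain ⟨t, ht, rfl⟩ := hcls_surj c
    rw [intg_hcls _ ht, ev_eq, ← Fl.toH_cls ⟨(isClosed_supp _).isCompact, ht⟩]
    rfl
  have h4 : ∀ x, Rep (fun M f => intg (cross Prod.fst Prod.snd β₀ (φ M))
      (evA A M x * H.map .snd (lam M f))) (intT _ (l ∘ₗ H.comp n) x) :=
    rep_intT (fun M => (H.mapA ContinuousMap.snd).comp (lam M))
    (fun M f b => (Hev.commute (map_mem_Hev _ (lam_mem M f)) b).symm)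
    (fun M => H.mapA (ContinuousMap.fst : C(A × Bs σ M, A)))
    (fun M => intg (cross Prod.fst Prod.snd β₀ (φ M))) (l ∘ₗ H.comp n) fun M f a => by
      change intg _ (H.map _ (lam M f) * H.map _ _) = _
      rw [Hev.commute (map_mem_Hev _ (lam_mem M f)), KB.intg_cross, h2, h3, mul_comm]
  refine ⟨fun M => cross Prod.fst Prod.snd β₀ (φ M), ⟨fun M => BM_ext fun c => ?_, fun M => ?_⟩,
    1, fun _ => 1, by simp, ⟨fun _ => .id, fun _ => .of_supp cocycle_one fun x _ => ⟨x, rfl⟩,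
    fun _ => ⟨0, isDeg_one⟩, fun M => by
      rw [map_one, hcls_one, ← Algebra.TensorProduct.one_def, map_one]⟩, fun x => ?_⟩
  · obtain ⟨x, rfl⟩ := evA_surj M c
    have a := h4 x M 1
    simp only [map_one, mul_one] at a
    refine Eq.trans ?_ a.symm
    rw [← map_incA, ← intg_push, (sy_triv (χ := χ)).push_gys, intg_cap]
    refine (h4 x (M + 1) _).trans ?_
    rw [prod_X_eq, topM_succ, add_comm, MvPolynomial.coeff_mul_monomial, mul_one]
  · have := BM.IsDeg.cross KB.hp (k := n) (β₁ := β₀) (BM.isDeg_iff.2 fun j hj c hc =>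
      (congrArg l ((Fl.toH_deg hc).comp_ne hj.symm)).trans (map_zero _)) (h1 M).deg
    rwa [Nat.cast_mul] at this
  · rw [map_one, one_smul, intT_bc]
    refine (Frc.of_rep (h4 x)).congr fun M f => ?_
    change intg (lgys id 1 _) _ = _
    rw [lgys_eq_gys IsClosedEmbedding.id cocycle_one fun x _ => ⟨x, rfl⟩,
      gys_id_eq_cap cocycle_one, hcls_one, cap_one, map_mul, evA_one]

theorem eq_zero_of_intT {y : K ⊗[ℂ] H A} (h : ∀ (l : H A →ₗ[ℂ] ℂ) n, intT K (l ∘ₗ H.comp n) y = 0) :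
    y = 0 := by
  classical
  let B := Module.Basis.ofVectorSpace ℂ K
  refine (equivFinsuppOfBasisLeft B).injective ((Finsupp.ext fun j => H.ext_comp fun n =>
    (Module.forall_dual_apply_eq_zero_iff ℂ _).1 (fun l => ?_) |>.trans (map_zero _).symm).trans
    (map_zero _).symm)
  have e : ∀ y : K ⊗[ℂ] H A, l (H.comp n (equivFinsuppOfBasisLeft B y j)) =
      B.repr (intT K (l ∘ₗ H.comp n) y) j := fun y => by
    induction y with
    | zero => simp
    | add a c ha hc => simp only [map_add, Finsupp.add_apply, ha, hc]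
    | tmul c a => simp [intT_tmul, mul_comm]
  rw [e, h, map_zero, Finsupp.zero_apply]

/-- odd classes do not contribute -/
theorem IsLoc.odd (h : IsLoc χ β i I) (hβ : ∀ M, ∃ m : ℤ, BM.IsDeg (2 * m) (β M)) {n : ℤ}
    (hn : Odd n) {c : H A} (hc : H.IsDeg n c) (z : K) : I (z ⊗ₜ c) = 0 := by
  obtain ⟨p, u, hp, hu, h⟩ := h
  have := (h (1 ⊗ₜ c)).unique (Frc.zero.congr fun M f => by
    obtain ⟨m, h1⟩ := hβ M
    obtain ⟨m', h2⟩ := hu.deg M
    rw [Algebra.TensorProduct.tmul_mul_tmul, one_mul, mul_one]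
    induction f using MvPolynomial.induction_on' with
    | add p q hp hq => rw [add_tmul, map_add, map_add, hp, hq, add_zero]
    | monomial l z =>
      refine intg_deg (lgys_deg h1 _ h2) ((((TS.triv σ pt).e_deg M
        (MvPolynomial.isHomogeneous_monomial (d := l) z rfl)).map _).mul (hc.map _)) ?_
      obtain ⟨_, rfl⟩ := hn
      omega)
  rw [bc_tmul, map_one, LinearMap.smul_apply, smul_eq_mul, mul_eq_zero, or_iff_right hp] at this
  rw [← mul_one z, ← smul_eq_mul, ← smul_tmul', map_smul, this, smul_zero]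

variable [∀ M, CompactSpace (X M)]

/-- **non-degeneracy** -/
theorem Sy.nondeg (S : Sy χ k i b) (hβ : IsB k b d β)
    (ho : ∀ M : ℕ, Ori (d + 2 * (Fintype.card σ * M)) (β M)) (hI : IsLoc χ β i I)
    {y : K ⊗[ℂ] H A} (h : ∀ z, I (y * z) = 0) : y = 0 := eq_zero_of_intT fun l n => by
  obtain ⟨γ, h1, h2⟩ := exists_triv (χ := χ) l n
  obtain ⟨_, -, z, -, e⟩ := S.transfer sy_triv (f := i) ⟨fun M x => (S.k_i M x).symm, S.b_i⟩
    (φ := .id A) (fun _ _ => rfl) hβ ho hI h1 h2 Tws.one Rst.one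
  have := e y
  rwa [h, map_one, mul_one, pb_of_id fun _ => rfl] at this

/-- **the class of the diagonal is the Casimir element** -/
theorem cas_of (nd : ∀ y, (∀ z, I (y * z) = 0) → y = 0) {I₃ : K ⊗[ℂ] H (A × A) →ₗ[K] K}
    (h : ∀ x₁ x₂, I₃ (pb K .fst x₁ * pb K .snd x₂) = I x₁ * I x₂) {D : K ⊗[ℂ] H (A × A)}
    (hD : ∀ x, D * x = x * D) (hd : ∀ x, I (pb K ((ContinuousMap.id A).prodMk (.id A)) x) = I₃ (x * D))
    {ι : Type} [Fintype ι] {e f : ι → K ⊗[ℂ] H A} (hs : D = ∑ j, pb K .fst (e j) * pb K .snd (f j))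
    (y : K ⊗[ℂ] H A) : ∑ j, I (y * e j) • f j = y := sub_eq_zero.1 (nd _ fun z => by
  have := hd (pb K .fst y * pb K .snd z)
  rw [map_mul, pb_pb, pb_pb, pb_of_id fun _ => rfl, pb_of_id fun _ => rfl, mul_assoc, ← hD, hs,
    Finset.sum_mul, Finset.mul_sum, map_sum] at this
  rw [sub_mul, map_sub, this, Finset.sum_mul, map_sum, sub_eq_zero]
  refine Finset.sum_congr rfl fun j _ => ?_
  rw [smul_mul_assoc, map_smul, smul_eq_mul, ← h, map_mul (pb K _), map_mul (pb K _), mul_assoc,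
    mul_assoc])

/-- every class on a product is a sum of products -/
theorem exists_sum {A' : Type} [TopologicalSpace A'] [Nice A'] [CompactSpace A']
    (D : K ⊗[ℂ] H (A × A')) : ∃ (n : ℕ) (e : Fin n → K ⊗[ℂ] H A) (f : Fin n → K ⊗[ℂ] H A'),
      D = ∑ j, pb K .fst (e j) * pb K .snd (f j) := by
  let p : K ⊗[ℂ] H (A × A') → Prop := fun D => ∃ (n : ℕ) (e : Fin n → K ⊗[ℂ] H A)
    (f : Fin n → K ⊗[ℂ] H A'), D = ∑ j, pb K .fst (e j) * pb K .snd (f j)
  have h0 : p 0 := ⟨0, ![], ![], rfl⟩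
  have ha : ∀ x y, p x → p y → p (x + y) := fun x y ⟨n, e, f, a⟩ ⟨n', e', f', a'⟩ =>
    ⟨n + n', Fin.append e e', Fin.append f f', by simp [Fin.sum_univ_add, a, a']⟩
  obtain ⟨κ, hκ⟩ := KB.exists_kun (A₁ := A) (A₂ := A')
  change p D
  induction D with
  | zero => exact h0
  | add x y hx hy => exact ha x y hx hy
  | tmul z c =>
    obtain ⟨c, rfl⟩ := κ.surjective c
    induction c with
    | zero => rw [map_zero, tmul_zero]; exact h0
    | add x y hx hy => rw [map_add, tmul_add]; exact ha _ _ hx hy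
    | tmul c c' => exact ⟨1, ![z ⊗ₜ c], ![1 ⊗ₜ c'], by simp [KB.pb_mul, hκ]⟩

section br

variable {Y : Ch.Sp} (a : TS σ Y)

theorem isEq_pt : (TS.triv σ pt).IsEq a
    ⟨1, fun _ => (), continuous_const, continuous_const, fun _ _ => rfl⟩ := fun _ _ => rfl

/-- the projection to the classifying space -/
noncomputable def bs (M : ℕ) : C((a.B M).X, Bs σ M) := ((isEq_pt a).bo (pm σ M)).map

theorem bs_π {M : ℕ} (x : (a.B M).T) : bs a M ((a.B M).π x) = bp x.2 := Mor.map_π _ _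

variable {a} {Zs : Set Y.T} {j : ∀ M, C(X M, (a.B M).X)}

theorem eb_bs (M : ℕ) (f : R σ) :
    eb (fun M => (bs a M).comp (j M)) M f = H.map (j M) (a.e M f) := by
  rw [eb_apply, ← H.map_map, ← (isEq_pt a).map_e M f]
  rfl

variable (hj : ∀ M, IsClosedEmbedding (j M)) (hr : ∀ M x, (a.B M).π x ∈ range (j M) ↔ x.1 ∈ Zs)
  (hk : ∀ M x, j (M + 1) (k M x) = (a.inc M).map (j M x))
include hj hr hk

theorem ovB_of : OvB k fun M => (bs a M).comp (j M) where
  emb M := isClosedEmbedding_of_comp (hj _).isEmbedding (hk M)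
    ((a.isClosedEmbedding_inc M).comp (hj M))
  sq M x := (congrArg (bs a _) (hk M x)).trans ((isEq_pt a).inc_comm M _)
  car M x := fun ⟨y, e⟩ => preimage_inc hj hr (hk M) (by
    obtain ⟨q, rfl⟩ := isOpenQuotientMap_bp.surjective y
    obtain ⟨z, hz⟩ := (a.B (M + 1)).surj (j _ x)
    obtain ⟨s, hs⟩ := bp_eq.1 ((Mor.map_π _ _).symm.trans (e.trans
      ((congrArg (bs a _) hz.symm).trans (bs_π a z))) : bp q.inc = bp z.2)
    have e' : ((z.1, (s • q).inc) : (a.B (M + 1)).T) = z :=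
      Prod.ext rfl ((PM.inc_smul s q).trans hs)
    exact ⟨(a.B M).π (z.1, s • q), (Mor.map_π _ _).trans ((congrArg _ e').trans hz)⟩)

theorem IsTw.isB (hβ : IsTw a j d β) : IsB k (fun M => (bs a M).comp (j M)) (2 * d) β := by
  have h := ovB_of hj hr hk
  refine ⟨fun M => ?_, fun M => (congrArg (BM.IsDeg · _) (by ring)).mp (hβ.deg M)⟩
  have a2 := IsCo.mono' (IsCo.pull' (a.isCo_col M) (j (M + 1)).continuous)
    (preimage_inc hj hr (hk M))
  rw [← hβ.step M (k M) (hk M), gys_congr (h.emb M) a2.cocycle a2.supp (h.isCo M).cocycle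
    (h.isCo M).supp]
  have := (Iso.cohom_eul (m := (isEq_pt a).bo (pm σ (M + 1))) (E' := chars (a.chi (pm σ (M + 1))))
    (E := chars ((TS.triv σ pt).chi (pm σ (M + 1)))) (A := fun _ => LinearMap.id)
    ⟨Hom.of_continuous (fun _ _ h => h) continuous_snd fun _ _ _ _ => rfl, fun _ _ _ h => h,
      fun _ v h => ⟨v, h, rfl⟩⟩ (a.isSec_col M) ((TS.triv σ pt).isSec_col M)
    fun _ => rfl).pull (j (M + 1)).continuous
  rw [pull_pull] at this
  refine this.mono ((preimage_mono ?_).trans (preimage_inc hj hr (hk M)))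
  rintro _ ⟨t, ht, rfl⟩
  exact (a.sat_inc M).mem_range.2 ((a.mem_range_inc_f M).2 ht)

end br

theorem Pc.sy {Y : HO} {h : TH σ Y} {Zs : Set Y.T} {j : ∀ M, C(X M, (h.toTS.B M).X)}
    {g : C(A, Y.X)} (hP : Pc h.toTS Zs j g i) (hχ : ∀ w ≠ 0, χ (lin w) ≠ 0)
    (e : Y.π '' (h.toTS.Fix ∩ Zs) ⊆ range g)
    (hk : ∀ M x, j (M + 1) (k M x) = (h.toTS.inc M).map (j M x)) :
    Sy χ k i fun M => (bs h.toTS M).comp (j M) where
  toOvB := ovB_of hP.emb hP.rng hk
  b_i M z := let ⟨x, _, _, _, h1, h2⟩ := hP.exists_rep M z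
    (congrArg (bs _ M) h2).trans ((bs_π _ x).trans h1.symm)
  k_i M := hP.lift_i (hk M)
  cut := let ⟨p, u, h0, h1, h2⟩ := hP.exists_glob hχ e
    ⟨p, u, h0, h1, fun M => ⟨(h2 M).1, (h2 M).2.1, (h2 M).2.2.trans (eb_bs M p).symm⟩⟩

end Vale.Agent.P269.LG
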