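import Vale.Agent.P269.Loc.ES
import Vale.Agent.P269.Holo.Morse
import Vale.Agent.P269.Holo.Set

/-!
# The fixed locus of a linear torus action on a submanifold
-/

set_option linter.unusedSectionVars false

namespace Vale.Agent.P287Q.Lam

open Set Function Topology Filter Module P269 P269.Holo P269.Loc

variable {σ V : Type} [Fintype σ] [NormedAddCommGroup V] [NormedSpace ℂ V] [FiniteDimensional ℂ V]

theorem mfd_fix {τ : Tor σ →* End ℂ V} (hw : Wtd τ) {S : Set V} (hS : ∀ x ∈ S, τ (gen σ) x ∈ S)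
    {n : ℕ} {a : V} (h : MfdAt S n a) (ha : a ∈ wsp τ 0) : ∃ k, MfdAt (S ∩ wsp τ 0) k a := by
  let g := LinearMap.toContinuousLinearMap (τ (gen σ))
  let t : S := ⟨a, h.1⟩
  let u : S → S := fun s => ⟨g s, hS _ s.2⟩
  have cu : Continuous u := (g.continuous.comp continuous_subtype_val).subtype_mk _
  have ut : u t = t := Subtype.ext (mem_wsp_zero.1 ha _)
  have hT : ∀ v ∈ tan Subtype.val t, τ (gen σ) v ∈ tan Subtype.val t := fun v hv => by
    have := h.2.fderiv_mem_tan (ι' := Subtype.val) cu.continuousAt (g.analyticAt _)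
      (.of_forall fun _ => rfl) hv
    rwa [g.fderiv, ut] at this
  obtain ⟨P, p1, p2, p3, -⟩ := hw.exists_proj (Γ := (⊥ : Subgroup ℂˣ))
    (fun c s v => map_smul (τ s) (c.1 : ℂ) v) (fun s v hv => hw.apply_mem_of_gen hT s hv)
    fun c v hv => Submodule.smul_mem _ (c.1 : ℂ) hv
  let Q : V →L[ℂ] tan Subtype.val t := LinearMap.toContinuousLinearMap (P.codRestrict _ p1)
  obtain ⟨ψ, hψ, h0⟩ : IsMfd Subtype.val n t := h.2
  have hu : AnalyticAt ℂ (fun z => Q ((ψ z).1 - a)) 0 :=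
    (Q.analyticAt _).comp (hψ.an.sub analyticAt_const)
  have hd : ∀ z, (fderiv ℂ (fun z => Q ((ψ z).1 - a)) 0 z : V) =
      fderiv ℂ (fun z => (ψ z).1) 0 z := fun z => by
    rw [fderiv_comp_an (f := fun z => (ψ z).1 - a) (Q.analyticAt _)
      (hψ.an.sub analyticAt_const), Q.fderiv, fderiv_sub_const]
    exact p2 _ (h0 ▸ fderiv_mem_tan hψ.lh.cont hψ.an z)
  obtain ⟨-, k, k1, k2, k3, k4⟩ := ift hu ⟨fun a b e => hψ.injective (by rw [← hd, e, hd]),
    fun v => by
      obtain ⟨z, hz⟩ := hψ.tan_eq.le (show v.1 ∈ _ by rw [h0]; exact v.2)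
      exact ⟨z, Subtype.ext ((hd z).trans hz)⟩⟩
  simp only [h0, t, sub_self, map_zero] at k1 k2 k4
  have h1 : ∀ᶠ x in 𝓝 t, ψ (k (Q (x.1 - a))) = x := by
    refine (h0 ▸ hψ.lh.map_nhds).ge (eventually_map.2 (k3.mono fun z hz => ?_))
    rw [hz]
  have h2 : Tendsto (fun v => u (ψ (k v))) (𝓝 0) (𝓝 t) := by
    simpa only [ContinuousAt, comp_def, k2, h0, ut] using cu.continuousAt.comp
      (ContinuousAt.comp (g := ψ) (k2 ▸ hψ.lh.cont) k1.continuousAt)
  let w := LinearMap.toContinuousLinearMap (wpr τ 0)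
  have c : AnalyticAt ℂ (fun y => Q (w (y - a))) a :=
    (Q.analyticAt _).comp ((w.analyticAt _).comp (analyticAt_id.sub analyticAt_const))
  have c0 : Q (w (a - a)) = 0 := by rw [sub_self, map_zero, map_zero]
  have c1 : Tendsto (fun y => Q (w (y - a))) (𝓝 a) (𝓝 0) := c0 ▸ c.continuousAt.tendsto
  refine ⟨_, ⟨h.1, ha⟩, (isMfd_of_retract (ι := (Subtype.val : ↥(S ∩ wsp τ 0) → V))
    IsEmbedding.subtypeVal (t := ⟨a, h.1, ha⟩) (r := fun y => (ψ (k (Q (w (y - a))))).1)
    (AnalyticAt.comp_of_eq (g := fun z => (ψ z).1) hψ.an (k1.comp_of_eq c c0)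
      ((congrArg k c0).trans k2)) ?_ ?_).1⟩
  · filter_upwards [c1.eventually (h2.eventually h1), c1.eventually k4] with y b1 b2
    refine ⟨⟨_, (ψ _).2, hw.mem_wsp_zero_of_gen_pow one_ne_zero ?_⟩, rfl⟩
    have e : Q ((u (ψ (k (Q (w (y - a)))))).1 - a) = Q (w (y - a)) := Subtype.ext (by
      change P (τ _ _ - a) = P (wpr τ 0 _)
      rw [← mem_wsp_zero.1 (hw.wpr_mem 0 (y - a)) (gen σ), p3, ← show P _ = P (wpr τ 0 _) from
        congrArg Subtype.val b2, ← p3, map_sub (τ _), mem_wsp_zero.1 ha])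
    rw [e] at b1
    rw [pow_one]
    exact (congrArg Subtype.val b1).symm
  · filter_upwards [(continuous_inclusion (inter_subset_left (t := (wsp τ 0 : Set V)))).tendsto
      ⟨a, h.1, ha⟩ |>.eventually h1] with s hs
    rw [show w (s.1 - a) = s.1 - a from hw.wpr_of_mem (sub_mem s.2.2 ha)]
    exact congrArg Subtype.val hs

variable {L J : Type} [NormedAddCommGroup L] [NormedSpace ℂ L] [FiniteDimensional ℂ L] [Fintype J]

/-- the diagonal representation -/
noncomputable def dgr (L : Type) [AddCommGroup L] [Module ℂ L] (v : J → σ → ℤ) :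
    Tor σ →* End ℂ (L × (J → ℂ)) where
  toFun s :=
    { toFun x := (x.1, fun j => (chr (v j) s : ℂ) * x.2 j)
      map_add' _ _ := Prod.ext rfl (funext fun _ => mul_add _ _ _)
      map_smul' _ _ := Prod.ext rfl (funext fun _ => mul_left_comm _ _ _) }
  map_one' := LinearMap.ext fun x => Prod.ext rfl (funext fun j =>
    (congrArg (fun c : ℂˣ => c.1 * x.2 j) (map_one _)).trans (one_mul _))
  map_mul' _ _ := LinearMap.ext fun x => Prod.ext rfl (funext fun j =>
    (congrArg (fun c : ℂˣ => c.1 * x.2 j) (map_mul _ _ _)).trans (mul_assoc _ _ _))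

theorem wtd_dgr (v : J → σ → ℤ) : Wtd (dgr L v) := by
  classical
  refine eq_top_iff.2 fun x _ => ?_
  rw [show x = (x.1, 0) + ∑ j, (0, Pi.single j (x.2 j)) from Prod.ext (by simp [Prod.fst_sum])
    (by simp [Prod.snd_sum, Finset.univ_sum_single])]
  refine add_mem (Submodule.mem_iSup_of_mem 0 (mem_wsp_zero.2 fun s =>
    Prod.ext rfl (funext fun j => mul_zero _))) (sum_mem fun j _ => Submodule.mem_iSup_of_mem (v j)
      fun s => Prod.ext (smul_zero _).symm (funext fun i => ?_))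
  change (chr (v i) s : ℂ) * (Pi.single j (x.2 j) : J → ℂ) i =
    chr (v j) s * (Pi.single j (x.2 j) : J → ℂ) i
  by_cases e : i = j
  · rw [e]
  · rw [Pi.single_eq_of_ne e, mul_zero, mul_zero]

theorem mem_wsp_dgr {v : J → σ → ℤ} {x : L × (J → ℂ)} :
    x ∈ wsp (dgr L v) 0 ↔ ∀ j, v j ≠ 0 → x.2 j = 0 :=
  mem_wsp_zero.trans ⟨fun h j e => by_contra fun b => e (eq_zero_of_chr_gen (Units.ext
    ((mul_eq_right₀ b).1 (congrFun (congrArg Prod.snd (h (gen σ))) j)))), fun h s =>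
    Prod.ext rfl (funext fun j => show (chr (v j) s : ℂ) * x.2 j = x.2 j by
      by_cases e : v j = 0
      · rw [e, chr_zero, Units.val_one, one_mul]
      · rw [h j e, mul_zero])⟩

/-- **The fixed locus of a diagonal action on a submanifold is a submanifold.** -/
theorem mfd_diag (v : J → σ → ℤ) {S : Set (L × (J → ℂ))}
    (hS : ∀ s : σ → ℂ, (∀ i, s i ≠ 0) → ∀ x ∈ S, (x.1, fun j => (∏ i, s i ^ v j i) * x.2 j) ∈ S)
    {n : ℕ} {a} (h : MfdAt S n a) (ha : ∀ j, v j ≠ 0 → a.2 j = 0) :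
    ∃ k, MfdAt {x | x ∈ S ∧ ∀ j, v j ≠ 0 → x.2 j = 0} k a := by
  obtain ⟨k, hk⟩ := mfd_fix (wtd_dgr v) (fun x hx => by
    have := hS (fun i => gen σ i) (fun i => (gen σ i).ne_zero) x hx
    simp only [← coe_chr] at this
    exact this) h (mem_wsp_dgr.2 ha)
  have := FiniteDimensional.complete ℂ (L × (J → ℂ))
  exact ⟨k, hk.congr (.of_forall fun _ => and_congr_right' mem_wsp_dgr)⟩

end Vale.Agent.P287Q.Lam
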