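import Vale.Agent.P287Q.Hb.PV
import Vale.Agent.P269.Gen.Act

/-!
# Free quotients by a torus with enough semi-invariant functions are projective
-/

set_option linter.unusedSectionVars false

namespace Vale.Agent.P287Q.Lam

open Set Function Topology Filter P291Z P269 P269.Holo P269.Mono P269.Tq Hb

variable {A W T I : Type} [NormedRing A] [NormedAlgebra ℂ A] [NormedAddCommGroup W]
  [NormedSpace ℂ W] [FiniteDimensional ℂ A] [FiniteDimensional ℂ W] [Fintype T] [Fintype I]
  {act : A → W → W} [IsAct act univ] {S : Set W}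

/-- finitely many invariant open sets suffice -/
theorem exists_fin [CompactSpace (Quo act S)] (hS : ∀ a, IsUnit a → ∀ x ∈ S, act a x ∈ S)
    {κ : Type} {p : κ → W → Prop} (ho : ∀ k, IsOpen {x | p k x})
    (hi : ∀ k a, IsUnit a → ∀ x ∈ S, p k x → p k (act a x)) (h : ∀ x ∈ S, ∃ k, p k x) :
    ∃ s : Finset κ, ∀ x ∈ S, ∃ k ∈ s, p k x := by
  have : IsAct act S := IsAct.mono ‹_› (subset_univ _) hS
  obtain ⟨s, hs⟩ := isCompact_univ.elim_finite_subcover
    (fun k => (Sp.mk : Sp act S → Quo act S) '' {x | p k x.val})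
    (fun k => Sp.isOpenQuotientMap_mk.isOpenMap _ ((ho k).preimage Sp.continuous_val))
    fun z _ => by
      obtain ⟨x, rfl⟩ := Sp.surjective_mk z
      obtain ⟨k, hk⟩ := h _ x.val_mem
      exact mem_iUnion.2 ⟨k, x, hk, rfl⟩
  refine ⟨s, fun x hx => ?_⟩
  obtain ⟨k, hk, y, h1, h2⟩ := mem_iUnion₂.1 (hs (mem_univ (Quo.mk act ⟨x, hx⟩)))
  obtain ⟨a, ha, e⟩ := QMA.mk_eq (x := y) (y := ⟨x, hx⟩) h2
  exact ⟨k, hk, (show x = act a y.val from e) ▸ hi k a ha _ y.val_mem h1⟩

theorem tn_mono {Z : Set W} (e : Z ⊆ S) (x : W) : tn Z x ≤ tn S x := fun _ hv Φ h1 h2 =>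
  hv Φ h1 (h2.mono fun _ a b => a (e b))

theorem emb_mono {χ : A → ℂ} {φ : W → I → ℂ} (h : Emb act S χ φ) {Z : Set W} (e : Z ⊆ S) :
    Emb act Z χ φ :=
  ⟨h.toGen.mono e, fun x hx y hy => h.inj x (e hx) y (e hy),
    fun x hx v hv => h.imm x (e hx) v (tn_mono e x hv)⟩

theorem prj_mono (h : Prj act S) {Z : Set W} (e : Z ⊆ S) : Prj act Z :=
  let ⟨k, χ, φ, h⟩ := h
  ⟨k, χ, φ, emb_mono h e⟩

variable (u : A ≃ₐ[ℂ] (T → ℂ))

/-- the character with exponents `c` -/
noncomputable def cu (c : T → ℤ) (a : A) : ℂ := ∏ t, u a t ^ c t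

theorem unit_iff {a : A} : IsUnit a ↔ ∀ t, u a t ≠ 0 :=
  (isUnit_map_iff u a).symm.trans isUnit_pi_iff

theorem hm_cu (c : T → ℤ) : Hm (cu u c) :=
  hm_prod _ fun t => hm_zpow ⟨by simp, fun a b _ _ => by simp, fun a _ =>
    ((continuous_apply t).comp u.toLinearMap.continuous_of_finiteDimensional).continuousAt⟩ _

variable [DecidableEq T]

/-- the weights of the generating functions -/
def cw (c₀ : T → ℤ) (d : Option T) : T → ℤ := c₀ + d.elim 0 fun t => Pi.single t 1

theorem zpow_aux {x : ℂ} {L : ℕ} {k : ℤ} (hx : x ≠ 0) (h : -k ≤ L) :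
    x ^ (L + k).toNat = x ^ L * x ^ k := by
  rw [← zpow_natCast, Int.toNat_of_nonneg (by omega), zpow_add₀ hx, zpow_natCast]

omit [DecidableEq T] in
theorem prod_zpow_sum {x : ℂ} (hx : x ≠ 0) (k : T → ℤ) : ∏ t, x ^ k t = x ^ ∑ t, k t := by
  classical
  induction (Finset.univ : Finset T) using Finset.induction_on with
  | empty => simp
  | insert a s h ih => rw [Finset.prod_insert h, Finset.sum_insert h, ih, zpow_add₀ hx]

theorem prj_of (e : W ≃ₗ[ℂ] (I → ℂ)) (w : I → T → ℤ)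
    (hact : ∀ a, IsUnit a → ∀ y i, e (act a y) i = cu u (w i) a * e y i) {κ : Type} [Fintype κ]
    (m : Option T → κ → W → ℂ) (an : ∀ d k z, AnalyticAt ℂ (m d k) z) (c₀ : T → ℤ)
    (eqv : ∀ d k a, IsUnit a → ∀ z ∈ S, m d k (act a z) = cu u (cw c₀ d) a * m d k z)
    (ne : ∀ d, ∀ z ∈ S, ∃ k, m d k z ≠ 0) : Prj act S := by
  classical
  let L : ℕ := ∑ i, ∑ t, (w i t).natAbs + 1
  have L0 : L ≠ 0 := Nat.succ_ne_zero _
  have L1 : ∀ i, ∑ t, |w i t| ≤ L := fun i => by
    have := Finset.single_le_sum (f := fun i => ∑ t, (w i t).natAbs) (fun _ _ => Nat.zero_le _)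
      (Finset.mem_univ i)
    simp only [← Int.natCast_natAbs]
    exact_mod_cast this.trans (Nat.le_succ _)
  have L2 : ∀ i t, - -w i t ≤ L := fun i t => by
    have := Finset.single_le_sum (f := fun t => |w i t|) (fun _ _ => abs_nonneg _)
      (Finset.mem_univ t)
    exact (neg_neg _).trans_le ((le_abs_self _).trans (this.trans (L1 i)))
  have L3 : ∀ i, -∑ t, w i t ≤ L := fun i =>
    (neg_le_abs _).trans ((Finset.abs_sum_le_sum_abs _ _).trans (L1 i))
  let P : (Option T → κ) → W → ℂ := fun f z => ∏ d, m d (f d) z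
  let s : (Option T → κ) → I → W → ℂ := fun f i z =>
    e z i * (m none (f none) z ^ (L + ∑ t, w i t).toNat *
      ∏ t, m (some t) (f (some t)) z ^ (L + -w i t).toNat)
  let g : (Option T → κ) → W → T → ℂ := fun f z t => m (some t) (f (some t)) z / m none (f none) z
  have P0 : ∀ {f z}, P f z ≠ 0 → ∀ d, m d (f d) z ≠ 0 := fun h d =>
    Finset.prod_ne_zero_iff.1 h d (Finset.mem_univ d)
  have g0 : ∀ {f z}, P f z ≠ 0 → ∀ t, g f z t ≠ 0 := fun h t => div_ne_zero (P0 h _) (P0 h _)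
  have key : ∀ {f z}, P f z ≠ 0 → ∀ i, s f i z * ∏ t, g f z t ^ w i t = e z i * P f z ^ L := by
    intro f z h i
    simp only [s, g, P, zpow_aux (P0 h _) (L2 i _), zpow_aux (P0 h _) (L3 i), Fintype.prod_option,
      mul_pow, div_zpow, Finset.prod_mul_distrib, Finset.prod_div_distrib, zpow_neg,
      Finset.prod_inv_distrib, Finset.prod_pow]
    have h1 : ∏ t, m none (f none) z ^ w i t = m none (f none) z ^ ∑ t, w i t :=
      prod_zpow_sum (P0 h none) _
    have h2 := prod_zpow_ne (fun t => P0 h (some t)) (w i)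
    have h3 := zpow_ne_zero (∑ t, w i t) (P0 h none)
    rw [h1]
    field_simp
  let φ : W → (Option T → κ) × Option I → ℂ := fun z x => x.2.elim (P x.1 z ^ L) fun i => s x.1 i z
  have aP : ∀ f z, AnalyticAt ℂ (P f) z := fun f z =>
    Finset.analyticAt_fun_prod _ fun d _ => an d _ z
  have ae : ∀ i z, AnalyticAt ℂ (fun z => e z i) z := fun i z =>
    analyticAt_pi_iff.1 (e.toContinuousLinearEquiv.analyticAt z) i
  have aS : ∀ f i z, AnalyticAt ℂ (s f i) z := fun f i z =>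
    (ae i z).mul (((an _ _ z).pow _).mul (Finset.analyticAt_fun_prod _ fun t _ => (an _ _ z).pow _))
  have aφ : ∀ z, AnalyticAt ℂ φ z := fun z => analyticAt_pi_iff.2 fun x => by
    rcases x with ⟨f, _ | i⟩
    exacts [(aP f z).pow L, aS f i z]
  have ex : ∀ z ∈ S, ∃ f, P f z ≠ 0 := fun z hz => by
    choose f hf using fun d => ne d z hz
    exact ⟨f, Finset.prod_ne_zero_iff.2 fun d _ => hf d⟩
  let G : (Option T → κ) → W → W → A := fun f x z => u.symm fun t => g f z t / g f x t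
  let N : (Option T → κ) → W → W → W := fun f x z =>
    e.symm fun i => s f i z / P f z ^ L * ∏ t, g f x t ^ w i t
  have G0 : ∀ {f x z}, P f x ≠ 0 → P f z ≠ 0 → IsUnit (G f x z) := fun h h' =>
    (unit_iff u).2 fun t => by
      simp only [G, AlgEquiv.apply_symm_apply]
      exact div_ne_zero (g0 h' t) (g0 h t)
  have GN : ∀ {f x z}, P f x ≠ 0 → P f z ≠ 0 → act (G f x z) (N f x z) = z := by
    intro f x z h h'
    refine e.injective (funext fun i => ?_)
    rw [hact _ (G0 h h')]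
    simp only [G, N, cu, AlgEquiv.apply_symm_apply, LinearEquiv.apply_symm_apply, div_zpow,
      Finset.prod_div_distrib]
    have h2 := prod_zpow_ne (g0 h) (w i)
    have h3 := pow_ne_zero L h'
    have h4 := key h' i
    field_simp
    linear_combination h4
  have G1 : ∀ {f x}, P f x ≠ 0 → G f x x = 1 := fun h =>
    u.symm_apply_eq.2 (funext fun t => by simp [div_self (g0 h t)])
  have N1 : ∀ {f x}, P f x ≠ 0 → N f x x = x := fun h => by
    have := GN h h
    rwa [G1 h, IsAct.one (act := act) _ (mem_univ _)] at this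
  refine Emb.prj (χ := fun a => (∏ d, cu u (cw c₀ d) a) ^ L) (φ := φ)
    ⟨⟨hm_pow (hm_prod _ fun d => hm_cu u _) L, fun x _ => aφ x, fun x hx h => ?_,
      fun a ha x hx => funext fun y => ?_⟩, fun x hx y hy t h => ?_, fun x hx v _ t h => ?_⟩
  · obtain ⟨f, hf⟩ := ex x hx
    exact pow_ne_zero L hf (congrFun h (f, none))
  · rcases y with ⟨f, _ | i⟩
    · simp only [φ, P, Option.elim, eqv _ _ a ha x hx, Finset.prod_mul_distrib, mul_pow,
        Pi.smul_apply, smul_eq_mul]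
    have h0 := (unit_iff u).1 ha
    have h1 : ∀ d, cu u (cw c₀ d) a ≠ 0 := fun d => prod_zpow_ne h0 _
    have h2 : ∀ t, cu u (cw c₀ (some t)) a = cu u (cw c₀ none) a * u a t := fun t => by
      simp only [cu, cw, Option.elim, Pi.add_apply, zpow_add₀ (h0 _), Finset.prod_mul_distrib,
        Pi.zero_apply, zpow_zero, mul_one]
      rw [Finset.prod_eq_single t (f := fun r => u a r ^ (Pi.single t 1 : T → ℤ) r)
        (fun r _ b => by simp [b]) (by simp)]
      simp
    have h3 : cu u (w i) a * (cu u (cw c₀ none) a ^ (L + ∑ t, w i t).toNat *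
        ∏ t, cu u (cw c₀ (some t)) a ^ (L + -w i t).toNat) = (∏ d, cu u (cw c₀ d) a) ^ L := by
      simp only [zpow_aux (h1 _) (L2 i _), zpow_aux (h1 _) (L3 i), Fintype.prod_option, mul_pow,
        Finset.prod_mul_distrib, zpow_neg, Finset.prod_inv_distrib, Finset.prod_pow]
      have h4 : ∏ t, cu u (cw c₀ (some t)) a ^ w i t =
          cu u (cw c₀ none) a ^ (∑ t, w i t) * cu u (w i) a := by
        simp only [h2, mul_zpow, Finset.prod_mul_distrib]
        rw [prod_zpow_sum (h1 none)]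
        rfl
      have h5 := zpow_ne_zero (∑ t, w i t) (h1 none)
      have h6 : cu u (w i) a ≠ 0 := prod_zpow_ne h0 _
      rw [h4]
      field_simp
    simp only [φ, s, Option.elim, eqv _ _ a ha x hx, hact a ha, Finset.prod_mul_distrib, mul_pow,
      Pi.smul_apply, smul_eq_mul, ← h3]
    ring
  · obtain ⟨f, hf⟩ := ex x hx
    obtain ⟨f', hf'⟩ := ex y hy
    have t0 : t ≠ 0 := fun b => pow_ne_zero L hf' ((congrFun h (f', none)).trans (by simp [b]))
    have h1 : P f y ^ L = t * P f x ^ L := congrFun h (f, none)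
    have h2 : P f y ≠ 0 := fun b => mul_ne_zero t0 (pow_ne_zero L hf) (by
      rw [← h1, b, zero_pow L0])
    refine ⟨_, G0 hf h2, (GN hf h2).symm.trans (congrArg _ ((congrArg e.symm
      (funext fun i => ?_)).trans (N1 hf)))⟩
    rw [h1, show s f i y = t * s f i x from congrFun h (f, some i), mul_div_mul_left _ _ t0]
  · obtain ⟨f, hf⟩ := ex x hx
    have d0 : ∀ y, HasFDerivAt (fun z => φ z y) (ContinuousLinearMap.proj y ∘L fderiv ℂ φ x) x :=
      hasFDerivAt_pi'.1 (aφ x).differentiableAt.hasFDerivAt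
    have l0 : HasDerivAt (fun ε : ℂ => x + ε • v) v 0 := by
      simpa using ((hasDerivAt_id' (0 : ℂ)).smul_const v).const_add x
    have d1 : ∀ y, HasDerivAt (fun ε : ℂ => φ (x + ε • v) y) (t * φ x y) 0 := fun y =>
      (HasFDerivAt.comp_hasDerivAt_of_eq (hl := d0 y) (hf := l0) (hy := by simp)).congr_deriv
        (congrFun h y)
    have d2 : HasDerivAt (fun ε : ℂ => N f x (x + ε • v)) 0 0 := by
      have : HasDerivAt (fun (ε : ℂ) i => s f i (x + ε • v) / P f (x + ε • v) ^ L *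
          ∏ t, g f x t ^ w i t) 0 0 := hasDerivAt_pi.2 fun i => by
        have := ((d1 (f, some i)).fun_div (d1 (f, none)) (by simpa [φ] using fun b => absurd b hf)).mul_const
          (∏ t, g f x t ^ w i t)
        refine this.congr_deriv ?_
        simp only [zero_smul, add_zero, Pi.zero_apply]
        ring
      exact (e.symm.toContinuousLinearEquiv.hasFDerivAt.comp_hasDerivAt 0 this).congr_deriv (map_zero _)
    have aG : AnalyticAt ℂ (G f x) x :=
      (u.symm.toLinearEquiv.toContinuousLinearEquiv.analyticAt _).comp (analyticAt_pi_iff.2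
        fun t => ((an _ _ x).div (an _ _ x) (P0 hf _)).div analyticAt_const (g0 hf t))
    have d3 : HasDerivAt (fun ε : ℂ => G f x (x + ε • v)) (fderiv ℂ (G f x) x v) 0 :=
      HasFDerivAt.comp_hasDerivAt_of_eq (hl := aG.differentiableAt.hasFDerivAt) (hf := l0)
        (hy := by simp)
    have a1 := (IsAct.an (act := act) 1 isUnit_one x (mem_univ x)).differentiableAt.hasFDerivAt
    have d4 := HasFDerivAt.comp_hasDerivAt_of_eq (hl := a1) (hf := d3.prodMk d2)
      (hy := by simp [G1 hf, N1 hf])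
    have d5 := d4.unique (l0.congr_of_eventuallyEq (by
      have : ∀ᶠ ε : ℂ in 𝓝 0, P f (x + ε • v) ≠ 0 :=
        (ContinuousAt.comp_of_eq (aP f x).continuousAt l0.continuousAt (by simp)).eventually_ne
          (by simpa using hf)
      exact this.mono fun ε b => GN hf b))
    refine ⟨fderiv ℂ (G f x) x v, d5.symm.trans ?_⟩
    rw [show (fun a => act a x) = (fun p : A × W => act p.1 p.2) ∘ fun a => (a, x) from rfl,
      (a1.comp 1 (hasFDerivAt_prodMk_left (1 : A) x)).fderiv]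
    rfl

/-- **Projectivity of the total space of a family.** -/
theorem wt_prj {S Λ R J : Type} [Fintype S] [Fintype Λ] [Fintype R] [Fintype J] [DecidableEq S]
    [DecidableEq R] (F : Wt S Λ R J) [IsAct F.actT univ] {A : Set ((Λ → ℂ) × (J → ℂ))}
    (hA : ∀ a, IsUnit a → ∀ x ∈ A, F.actT a x ∈ A) [CompactSpace (F.X A)] (c₀ : R → ℤ)
    (amp : ∀ d, ∀ z ∈ A, ∃ α : J → ℕ, (∀ i, ∑ j, α j * F.w j i = cw c₀ d i) ∧
      ∏ j, z.2 j ^ α j ≠ 0)
    (hB : ∀ z ∈ A, ∀ s, ∃ a, F.wl a = Pi.single s 1 ∧ z.1 a ≠ 0) : Prj F.actT A := by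
  let u := (AlgEquiv.sumArrowEquivProdArrow S R ℂ ℂ).symm
  have hu : ∀ c a, cu u c a = (∏ i, a.1 i ^ c (.inl i)) * ∏ r, a.2 r ^ c (.inr r) := fun c a => by
    rw [cu, Fintype.prod_sum_type]; rfl
  have mon : ∀ (α : J → ℕ) a, IsUnit a → ∀ z, ∏ j, (F.actT a z).2 j ^ α j =
      ((∏ i, a.1 i ^ ∑ j, α j * F.wt j i) * ∏ r, a.2 r ^ ∑ j, α j * F.w j r) *
        ∏ j, z.2 j ^ α j := fun α a ha z => by
    have h1 := isUnit_pi_iff.1 (Prod.isUnit_iff.1 ha).1
    have h2 := isUnit_pi_iff.1 (Prod.isUnit_iff.1 ha).2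
    simp only [Wt.actT, mul_pow, Finset.prod_mul_distrib, ← prod_zpow_sum (h1 _),
      ← prod_zpow_sum (h2 _), ← Finset.prod_pow, ← zpow_natCast (_ ^ (_ : ℤ)), ← zpow_mul,
      mul_comm (α _ : ℤ)]
    rw [Finset.prod_comm, Finset.prod_comm (s := (Finset.univ : Finset J))]
  choose s hs using fun d => exists_fin (act := F.actT) hA
    (p := fun (α : J → ℕ) z => (∀ i, ∑ j, α j * F.w j i = cw c₀ d i) ∧ ∏ j, z.2 j ^ α j ≠ 0)
    (fun α => isOpen_const.inter (isOpen_ne_fun (by fun_prop) continuous_const))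
    (fun α a ha x _ h => ⟨h.1, mon α a ha x ▸ mul_ne_zero (mul_ne_zero
      (prod_zpow_ne (isUnit_pi_iff.1 (Prod.isUnit_iff.1 ha).1) _)
      (prod_zpow_ne (isUnit_pi_iff.1 (Prod.isUnit_iff.1 ha).2) _)) h.2⟩) (amp d)
  let s' := Finset.univ.biUnion s
  let ω : (J → ℕ) → S → ℤ := fun α i => ∑ j, α j * F.wt j i
  let c : S ⊕ R → ℤ := Sum.elim (fun i => ∑ α ∈ s', |ω α i|) c₀
  have hc : ∀ d, ∀ α ∈ s', ∀ i, 0 ≤ cw c d (.inl i) - ω α i := fun d α h i => by
    have h1 := Finset.single_le_sum (f := fun α => |ω α i|) (fun _ _ => abs_nonneg _) h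
    have h2 := le_abs_self (ω α i)
    have h3 : 0 ≤ (d.elim 0 fun t => Pi.single t 1 : S ⊕ R → ℤ) (.inl i) := by
      cases d
      · exact le_rfl
      · simp only [Option.elim, Pi.single_apply]
        split_ifs <;> simp
    change 0 ≤ ∑ α ∈ s', |ω α i| + _ - _
    omega
  refine prj_of u (LinearEquiv.sumArrowLequivProdArrow Λ J ℂ ℂ).symm
    (Sum.elim (fun a => Sum.elim (F.wl a) 0) fun j => Sum.elim (F.wt j) (F.w j))
    (fun a ha y i => ?_) (κ := s' × (S → Λ)) (fun d k z =>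
      if (∀ i, F.wl (k.2 i) = Pi.single i 1) ∧ ∀ r, ∑ j, k.1.1 j * F.w j r = cw c d (.inr r) then
        (∏ j, z.2 j ^ k.1.1 j) * ∏ i, z.1 (k.2 i) ^ (cw c d (.inl i) - ω k.1.1 i).toNat else 0)
    (fun d k z => ?_) c (fun d k a ha z _ => ?_) fun d z hz => ?_
  · rw [hu]
    rcases i with i | i
    · simp only [Sum.elim_inl, Sum.elim_inr, Pi.zero_apply, zpow_zero, Finset.prod_const_one, mul_one]
      rfl
    · rfl
  · split_ifs
    · exact (Finset.analyticAt_fun_prod _ fun j _ =>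
        (analyticAt_pi_iff.1 analyticAt_snd j).fun_pow _).mul (Finset.analyticAt_fun_prod _
          fun j _ => (analyticAt_pi_iff.1 analyticAt_fst _).fun_pow _)
    · exact analyticAt_const
  · split_ifs with h
    · have h1 := isUnit_pi_iff.1 (Prod.isUnit_iff.1 ha).1
      have h2 : ∀ i, (F.actT a z).1 (k.2 i) = a.1 i * z.1 (k.2 i) := fun i => by
        change (∏ t, a.1 t ^ F.wl (k.2 i) t) * _ = _
        rw [h.1, Finset.prod_eq_single i (fun r _ b => by simp [b]) (by simp)]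
        simp
      have h3 : ∀ i, a.1 i ^ cw c d (.inl i) =
          a.1 i ^ ω k.1.1 i * a.1 i ^ (cw c d (.inl i) - ω k.1.1 i).toNat := fun i => by
        rw [← zpow_natCast, Int.toNat_of_nonneg (hc d _ k.1.2 i), ← zpow_add₀ (h1 i),
          add_sub_cancel]
      rw [mon _ a ha, hu, Finset.prod_congr rfl fun i _ => h3 i]
      simp only [h2, h.2, mul_pow, Finset.prod_mul_distrib, ω]
      ring
    · rw [mul_zero]
  · choose l h1 h2 using hB z hz
    obtain ⟨α, h3, h4, h5⟩ := hs (d.bind Sum.getRight?) z hz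
    refine ⟨(⟨α, Finset.mem_biUnion.2 ⟨_, Finset.mem_univ _, h3⟩⟩, l), ?_⟩
    rw [if_pos ⟨h1, fun r => (h4 r).trans
      (by rcases d with _ | _ | _ <;> simp [cw, c, Pi.single_apply])⟩]
    exact mul_ne_zero h5 (Finset.prod_ne_zero_iff.2 fun i _ => pow_ne_zero _ (h2 i))

/-- the total space of a good family over tuples of vectors, and its invariant compact parts -/
theorem fam_prj {S Λ R J K : Type} [Fintype S] [Fintype Λ] [Fintype R] [Fintype J] [Fintype K]
    [DecidableEq S] [DecidableEq R] {F : Fam S Λ R J K} [IsAct F.actT univ] (h : F.Good)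
    {A : Set ((Λ → ℂ) × (J → ℂ))} (e : A ⊆ F.cone)
    (hA : ∀ a, IsUnit a → ∀ x ∈ A, F.actT a x ∈ A) [CompactSpace (F.X A)]
    (hB : ∀ l ∈ F.B, ∀ s, ∃ a, F.wl a = Pi.single s 1 ∧ l a ≠ 0) : Prj F.actT A :=
  let ⟨θ₀, N, a⟩ := h.ample
  wt_prj F.toWt hA (N • θ₀) (fun d z hz => a.2.2 (cw (N • θ₀) d) (match d with
    | none => .inl (add_zero _)
    | some r => .inr ⟨r, .inl rfl⟩) z (e hz)) fun _ hz => hB _ (e hz).1

end Vale.Agent.P287Q.Lam
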