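import Vale.Agent.P287Q.Hb.Abs
import Vale.Agent.P287Q.Mf.Api
import Vale.Agent.P287Q.Lam.Prj
import Vale.Agent.P269.LG.TopA

/-!
# Bigradings of cohomology rings, weights, manifolds of mixed dimension
-/

set_option linter.unusedSectionVars false
set_option linter.style.haveILetI false

namespace Vale.Agent.P287Q.Lam

open Set Function Topology Filter TensorProduct P291Z P269 P269.Holo P269.Mono P269.Tq P269.Coh
  P269.Ch P269.Orb P269.LG Hb Mf

section bg

variable {X Y : Type} [TopologicalSpace X] [TopologicalSpace Y]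

/-- A bigrading of the cohomology ring. -/
structure BG (T : ℤ → ℤ → Submodule ℂ (H X)) : Prop where
  deg : ∀ p q, ∀ c ∈ T p q, H.IsDeg (p + q) c
  one : 1 ∈ T 0 0
  mul : ∀ p q p' q', ∀ a ∈ T p q, ∀ b ∈ T p' q', a * b ∈ T (p + p') (q + q')
  span : ∀ c, c ∈ ⨆ i : ℤ × ℤ, T i.1 i.2
  ex : ∀ w : ℤ → ℤ → ℂ, ∃ ν : Module.End ℂ (H X), ∀ p q, ∀ c ∈ T p q, ν c = w p q • c

theorem bg_of_hg {Z : PS} {T : ℤ → ℤ → Submodule ℂ (H Z.X)} (h : HG Z T) : BG T :=
  ⟨h.deg, h.one, h.mul, h.span, h.exists_end⟩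

/-- The classes of weight `k = p - q`. -/
noncomputable def WT (T : ℤ → ℤ → Submodule ℂ (H X)) (k : ℤ) : Submodule ℂ (H X) :=
  ⨆ p, T p (p - k)

/-- The even classes of weight `k`. -/
noncomputable def WE (T : ℤ → ℤ → Submodule ℂ (H X)) (k : ℤ) : Submodule ℂ (Hev X) :=
  (WT T k).comap (Hev X).val.toLinearMap

variable {T : ℤ → ℤ → Submodule ℂ (H X)} {T' : ℤ → ℤ → Submodule ℂ (H Y)} {p q k l d : ℤ}
  {c c' : H X}

theorem mem_WT (hc : c ∈ T p q) (e : p - q = k) : c ∈ WT T k :=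
  Submodule.mem_iSup_of_mem p ((show q = p - k by omega) ▸ hc)

theorem mem_WE {c : Hev X} : c ∈ WE T k ↔ c.1 ∈ WT T k := Iff.rfl

theorem WT.induction {P : H X → Prop} (hc : c ∈ WT T k) (h0 : P 0)
    (hadd : ∀ a b, P a → P b → P (a + b)) (h : ∀ p q, p - q = k → ∀ c ∈ T p q, P c) : P c :=
  Submodule.iSup_induction (motive := P) _ hc (fun p => h p _ (by ring)) h0 hadd

theorem WT.map {f : C(Y, X)} (hf : ∀ p q, ∀ c ∈ T p q, H.map f c ∈ T' p q) (hc : c ∈ WT T k) :
    H.map f c ∈ WT T' k :=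
  WT.induction (P := fun c => H.map f c ∈ WT T' k) hc (by rw [map_zero]; exact zero_mem _)
    (fun a b ha hb => by rw [map_add]; exact add_mem ha hb) fun p q e c hc => mem_WT (hf p q c hc) e

namespace BG

variable (h : BG T)
include h

theorem induction {P : H X → Prop} (h0 : P 0) (hadd : ∀ a b, P a → P b → P (a + b))
    (hm : ∀ p q, ∀ c ∈ T p q, P c) (c : H X) : P c :=
  Submodule.iSup_induction (motive := P) _ (h.span c) (fun i => hm i.1 i.2) h0 hadd

theorem ext_ty {M : Type*} [AddCommGroup M] [Module ℂ M] {f g : H X →ₗ[ℂ] M}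
    (e : ∀ p q, ∀ c ∈ T p q, f c = g c) : f = g :=
  LinearMap.ext (h.induction (by rw [map_zero, map_zero])
    (fun a b ha hb => by rw [map_add, map_add, ha, hb]) e)

theorem deg_induction {P : H X → Prop} (hc : H.IsDeg d c) (h0 : P 0)
    (hadd : ∀ a b, P a → P b → P (a + b)) (hm : ∀ p q, p + q = d → ∀ c ∈ T p q, P c) : P c := by
  refine hc.comp_eq ▸ h.induction (P := fun c => P (H.comp d c)) (by rwa [map_zero])
    (fun a b ha hb => by rw [map_add]; exact hadd _ _ ha hb) (fun p q c hc => ?_) c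
  by_cases e : p + q = d
  · rw [H.IsDeg.comp_eq (e ▸ h.deg p q c hc)]
    exact hm p q e c hc
  · rwa [(h.deg p q c hc).comp_ne (Ne.symm e)]

/-- The projection to the weight `k`. -/
noncomputable def wp (k : ℤ) : Module.End ℂ (H X) :=
  (h.ex fun p q => if p - q = k then 1 else 0).choose

theorem wp_ty (k : ℤ) (hc : c ∈ T p q) : h.wp k c = if p - q = k then c else 0 := by
  rw [wp, (h.ex _).choose_spec p q c hc, ite_smul, one_smul, zero_smul]

theorem wp_wt (k : ℤ) (hc : c ∈ WT T l) : h.wp k c = if l = k then c else 0 :=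
  WT.induction (P := fun c => h.wp k c = if l = k then c else 0) hc (by rw [map_zero, ite_self])
    (fun a b ha hb => by rw [map_add, ha, hb, ite_add_ite, add_zero])
    fun p q e c hc => by rw [h.wp_ty k hc, e]

theorem wp_self (hc : c ∈ WT T k) : h.wp k c = c := (h.wp_wt k hc).trans (if_pos rfl)

theorem wp_ne (hc : c ∈ WT T l) (e : l ≠ k) : h.wp k c = 0 := (h.wp_wt k hc).trans (if_neg e)

theorem wp_ind {K : Submodule ℂ (H X)} (hc : H.IsDeg d c)
    (hm : ∀ p q, p + q = d → p - q = k → T p q ≤ K) : h.wp k c ∈ K :=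
  h.deg_induction (P := fun c => h.wp k c ∈ K) hc (by rw [map_zero]; exact zero_mem _)
    (fun a b ha hb => by rw [map_add]; exact add_mem ha hb) fun p q e c hc => by
      rw [h.wp_ty k hc]
      split_ifs with e'
      exacts [hm p q e e' hc, zero_mem _]

theorem wp_mem (k : ℤ) (c : H X) : h.wp k c ∈ WT T k :=
  h.induction (P := fun c => h.wp k c ∈ WT T k) (by rw [map_zero]; exact zero_mem _)
    (fun a b ha hb => by rw [map_add]; exact add_mem ha hb)
    (fun p q c hc => h.wp_ind (h.deg p q c hc) fun _ _ _ e _ hc => mem_WT hc e) c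

theorem mem_iff : c ∈ WT T k ↔ h.wp k c = c := ⟨h.wp_self, fun e => e ▸ h.wp_mem k c⟩

theorem wp_deg (k : ℤ) (hc : H.IsDeg d c) : H.IsDeg d (h.wp k c) :=
  h.wp_ind (K := H.deg X d) hc fun p q e _ c hc => e ▸ h.deg p q c hc

theorem wp_mem_ty (hc : H.IsDeg (p + q) c) : h.wp (p - q) c ∈ T p q :=
  h.wp_ind hc fun p' q' e e' => by rw [show p' = p by omega, show q' = q by omega]

theorem wp_odd (hc : H.IsDeg d c) (e : Odd (d - k)) : h.wp k c = 0 :=
  h.wp_ind (K := ⊥) hc fun p q e1 e2 => by obtain ⟨r, hr⟩ := e; omega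

/-- a homogeneous class of weight `p - q` has type `(p, q)` -/
theorem mem_ty (hc : H.IsDeg (p + q) c) (hw : c ∈ WT T (p - q)) : c ∈ T p q :=
  h.wp_self hw ▸ h.wp_mem_ty hc

theorem wp_ev (k : ℤ) (hc : c ∈ Hev X) : h.wp k c ∈ Hev X :=
  Hev.induction (P := fun c => h.wp k c ∈ Hev X) hc (fun _ _ e => mem_Hev (h.wp_deg k e))
    fun a b ha hb => by rw [map_add]; exact add_mem ha hb

theorem wp_ev_odd (hc : c ∈ Hev X) (e : Odd k) : h.wp k c = 0 :=
  Hev.induction (P := fun c => h.wp k c = 0) hc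
    (fun d _ e' => h.wp_odd e' ((even_two_mul d).sub_odd e))
    fun a b ha hb => by rw [map_add, ha, hb, add_zero]

theorem wt_one : 1 ∈ WT T 0 := mem_WT h.one rfl

theorem wt_mul (hc : c ∈ WT T k) (hc' : c' ∈ WT T l) : c * c' ∈ WT T (k + l) :=
  WT.induction (P := fun c => c * c' ∈ WT T (k + l)) hc (by rw [zero_mul]; exact zero_mem _)
    (fun a b ha hb => by rw [add_mul]; exact add_mem ha hb) fun p q e c hc =>
    WT.induction (P := fun c' => c * c' ∈ WT T (k + l)) hc' (by rw [mul_zero]; exact zero_mem _)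
      (fun a b ha hb => by rw [mul_add]; exact add_mem ha hb) fun p' q' e' c' hc' =>
      mem_WT (h.mul p q p' q' c hc c' hc') (by omega)

theorem wp_mul (k : ℤ) (hc : c ∈ WT T 0) (b : H X) : h.wp k (c * b) = c * h.wp k b :=
  LinearMap.congr_fun (h.ext_ty (f := h.wp k ∘ₗ LinearMap.mulLeft ℂ c)
    (g := LinearMap.mulLeft ℂ c ∘ₗ h.wp k) fun p q b hb => by
      change h.wp k (c * b) = c * h.wp k b
      rw [h.wp_wt k (h.wt_mul hc (mem_WT hb rfl)), h.wp_ty k hb, zero_add, mul_ite, mul_zero]) b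

theorem map_wp (h' : BG T') {f : C(Y, X)} (hf : ∀ p q, ∀ c ∈ T p q, H.map f c ∈ T' p q) (k : ℤ)
    (c : H X) : H.map f (h.wp k c) = h'.wp k (H.map f c) :=
  LinearMap.congr_fun (h.ext_ty (f := pl f ∘ₗ h.wp k) (g := h'.wp k ∘ₗ pl f) fun p q c hc => by
    change H.map f (h.wp k c) = h'.wp k (H.map f c)
    rw [h.wp_ty k hc, h'.wp_ty k (hf p q c hc), apply_ite (H.map f), map_zero]) c

theorem top_WE : ⨆ k, WE T k = ⊤ := by
  refine eq_top_iff.2 fun c _ => ?_
  obtain ⟨b, hb, e⟩ : c.1 ∈ (⨆ k, WE T k).map (Hev X).val.toLinearMap :=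
    Hev.induction (P := fun c => c ∈ (⨆ k, WE T k).map (Hev X).val.toLinearMap) c.2
      (fun d c hc => h.deg_induction
        (P := fun c => c ∈ (⨆ k, WE T k).map (Hev X).val.toLinearMap) hc (zero_mem _)
        (fun _ _ => add_mem) fun p q e c hc => ⟨⟨c, mem_Hev (e ▸ h.deg p q c hc)⟩,
          Submodule.mem_iSup_of_mem (p - q) (mem_WT hc rfl), rfl⟩) fun _ _ => add_mem
  exact (Subtype.ext e : b = c) ▸ hb

/-- The projection to the weight `k` on even classes. -/
noncomputable def we (k : ℤ) : Module.End ℂ (Hev X) :=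
  (h.wp k ∘ₗ (Hev X).val.toLinearMap).codRestrict (Hev X).toSubmodule fun c => h.wp_ev k c.2

theorem coe_we (k : ℤ) (c : Hev X) : (h.we k c).1 = h.wp k c := rfl

end BG

/-- **gluing of bigradings** -/
theorem BG.glue {ι : Type} [Fintype ι] {Z : ι → Type} [∀ i, TopologicalSpace (Z i)]
    {TZ : ∀ i, ℤ → ℤ → Submodule ℂ (H (Z i))} (hZ : ∀ i, BG (TZ i)) (φ : ∀ i, C(Z i, X))
    (E : ∀ i, H (Z i) →ₗ[ℂ] H X) (hE : ∀ c, ∑ i, E i (H.map (φ i) c) = c)
    (deg : ∀ p q, ∀ c ∈ T p q, H.IsDeg (p + q) c)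
    (res : ∀ i p q, ∀ c ∈ T p q, H.map (φ i) c ∈ TZ i p q)
    (ext : ∀ i p q, ∀ a ∈ TZ i p q, E i a ∈ T p q) : BG T where
  deg := deg
  one := hE 1 ▸ sum_mem fun i _ => ext i _ _ _ (map_one (H.map (φ i)) ▸ (hZ i).one)
  mul p q p' q' a ha b hb := hE (a * b) ▸ sum_mem fun i _ => ext i _ _ _
    (map_mul (H.map (φ i)) a b ▸ (hZ i).mul _ _ _ _ _ (res i _ _ a ha) _ (res i _ _ b hb))
  span c := hE c ▸ sum_mem fun i _ => (hZ i).induction
    (P := fun a => E i a ∈ ⨆ j : ℤ × ℤ, T j.1 j.2) (by rw [map_zero]; exact zero_mem _)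
    (fun a b ha hb => by rw [map_add]; exact add_mem ha hb)
    (fun p q a ha => Submodule.mem_iSup_of_mem (p, q) (ext i p q a ha)) _
  ex w := by
    choose ν hν using fun i => (hZ i).ex w
    refine ⟨∑ i, E i ∘ₗ ν i ∘ₗ pl (φ i), fun p q c hc => ?_⟩
    rw [← congrArg (w p q • ·) (hE c), LinearMap.sum_apply, Finset.smul_sum]
    exact Finset.sum_congr rfl fun i _ =>
      (congrArg (E i) (hν i p q _ (res i p q c hc))).trans (map_smul _ _ _)

/-- the idempotent of a piece -/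
noncomputable abbrev idU (U : Set X) : H X := hcls (fn (U.indicator 1))

/-- extension by zero -/
noncomputable def ext0 (U : Set X) (r : C(X, Y)) : H Y →ₗ[ℂ] H X :=
  LinearMap.mulLeft ℂ (idU U) ∘ₗ pl r

theorem ext0_apply (U : Set X) (r : C(X, Y)) (a : H Y) : ext0 U r a = idU U * H.map r a := rfl

theorem ext0_map {U : Set X} (hU : IsClopen U) {φ : C(Y, X)} {r : C(X, Y)}
    (hr : ∀ x ∈ U, φ (r x) = x) (c : H X) : ext0 U r (H.map φ c) = idU U * c := by
  rw [ext0_apply, H.map_map, TopP.ind_mul_map hU (g := .id X) hr, H.map_id fun _ => rfl]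

theorem sum_idU {ι : Type} [Fintype ι] {U : ι → Set X} (hU : ∀ i, IsClopen (U i))
    (h : ∀ x, ∃! i, x ∈ U i) : ∑ i, idU (U i) = 1 := by
  classical
  have key : ∀ s : Finset ι, IsLocallyConstant (∑ i ∈ s, (U i).indicator 1 : X → ℂ) ∧
      ∑ i ∈ s, idU (U i) = hcls (fn (∑ i ∈ s, (U i).indicator 1)) := fun s => by
    induction s using Finset.induction_on with
    | empty =>
      rw [Finset.sum_empty, Finset.sum_empty, TopP.fn_zero, hcls_zero]
      exact ⟨IsLocallyConstant.const 0, rfl⟩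
    | insert i s hi ih =>
      rw [Finset.sum_insert hi, Finset.sum_insert hi, ih.2, ← hcls_add
        (cocycle_fn.2 (TopP.lc_ind (hU i))) (cocycle_fn.2 ih.1)]
      exact ⟨(TopP.lc_ind (hU i)).add ih.1, congrArg hcls
        (((isDeg_fn _).add (isDeg_fn _)).ext_zero (isDeg_fn _) fun _ => rfl)⟩
  rw [(key _).2, ← hcls_one]
  refine congrArg hcls ((isDeg_fn _).ext_zero isDeg_one fun x => ?_)
  obtain ⟨i, h1, h2⟩ := h x
  change (∑ i, (U i).indicator 1 : X → ℂ) x = 1
  rw [Finset.sum_apply, Finset.sum_eq_single i (fun j _ e => indicator_of_notMem (mt (h2 j) e) _)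
    fun e => absurd (Finset.mem_univ i) e, indicator_of_mem h1, Pi.one_apply]

end bg

section bc

variable {X Y : Type} [TopologicalSpace X] [TopologicalSpace Y] (K : Type) [Field K] [Algebra ℂ K]
  {T : ℤ → ℤ → Submodule ℂ (H X)} {T' : ℤ → ℤ → Submodule ℂ (H Y)} {k l : ℤ}

/-- The types on the localised even cohomology. -/
noncomputable def TyK (T : ℤ → ℤ → Submodule ℂ (H X)) (k : ℤ) : Submodule K (K ⊗[ℂ] Hev X) :=
  (WE T k).baseChange K

variable {K}

theorem tmul_mem_TyK (a : K) {c : Hev X} (hc : c.1 ∈ WT T k) : a ⊗ₜ c ∈ TyK K T k :=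
  Submodule.tmul_mem_baseChange_of_mem a hc

theorem TyK.induction {P : K ⊗[ℂ] Hev X → Prop} {x} (hx : x ∈ TyK K T k) (h0 : P 0)
    (hadd : ∀ a b, P a → P b → P (a + b)) (h : ∀ a, ∀ c : Hev X, c.1 ∈ WT T k → P (a ⊗ₜ c)) :
    P x := by
  obtain ⟨y, rfl⟩ := hx
  induction y with
  | zero => rwa [map_zero]
  | add a b ha hb => rw [map_add]; exact hadd _ _ ha hb
  | tmul a c => exact h a c.1 c.2

theorem TyK.map {f : C(Y, X)} (hf : ∀ p q, ∀ c ∈ T p q, H.map f c ∈ T' p q) {x}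
    (hx : x ∈ TyK K T k) :
    Algebra.TensorProduct.map (AlgHom.id K K) (Hev.map f) x ∈ TyK K T' k :=
  TyK.induction (P := fun x => Algebra.TensorProduct.map (AlgHom.id K K) (Hev.map f) x ∈ TyK K T' k)
    hx (by rw [map_zero]; exact zero_mem _)
    (fun a b ha hb => by rw [map_add]; exact add_mem ha hb)
    fun a c hc => tmul_mem_TyK a (WT.map hf hc)

namespace BG

variable (h : BG T)
include h

theorem TyK_one : 1 ∈ TyK K T 0 := tmul_mem_TyK 1 h.wt_one

theorem TyK_mul {x y} (hx : x ∈ TyK K T k) (hy : y ∈ TyK K T l) : x * y ∈ TyK K T (k + l) :=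
  TyK.induction (P := fun x => x * y ∈ TyK K T (k + l)) hx (by rw [zero_mul]; exact zero_mem _)
    (fun a b ha hb => by rw [add_mul]; exact add_mem ha hb) fun a c hc =>
    TyK.induction (P := fun y => a ⊗ₜ c * y ∈ TyK K T (k + l)) hy
      (by rw [mul_zero]; exact zero_mem _) (fun a b ha hb => by rw [mul_add]; exact add_mem ha hb)
      fun b c' hc' => by
        rw [Algebra.TensorProduct.tmul_mul_tmul]
        exact tmul_mem_TyK _ (h.wt_mul hc hc')

theorem TyK_top : ⨆ k, TyK K T k = ⊤ := by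
  refine eq_top_iff.2 fun x _ => ?_
  induction x with
  | zero => exact zero_mem _
  | add a b ha hb => exact add_mem (ha trivial) (hb trivial)
  | tmul a c =>
    refine Submodule.iSup_induction (motive := fun c => a ⊗ₜ c ∈ ⨆ k, TyK K T k) _
      (h.top_WE.ge trivial : c ∈ ⨆ k, WE T k)
      (fun k c hc => Submodule.mem_iSup_of_mem k (tmul_mem_TyK a hc)) ?_ fun b b' hb hb' => ?_
    · rw [tmul_zero]; exact zero_mem _
    · rw [tmul_add]; exact add_mem hb hb'

theorem we_TyK (k : ℤ) {x} (hx : x ∈ TyK K T l) :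
    (h.we k).baseChange K x = if l = k then x else 0 :=
  TyK.induction (P := fun x => (h.we k).baseChange K x = if l = k then x else 0) hx
    (by rw [map_zero, ite_self]) (fun a b ha hb => by rw [map_add, ha, hb, ite_add_ite, add_zero])
    fun a c hc => by
      rw [LinearMap.baseChange_tmul, show h.we k c = if l = k then c else 0 from Subtype.ext
        ((h.wp_wt k hc).trans (apply_ite Subtype.val _ c 0).symm), tmul_ite]

theorem we_mem (k : ℤ) (x : K ⊗[ℂ] Hev X) : (h.we k).baseChange K x ∈ TyK K T k := by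
  induction x with
  | zero => rw [map_zero]; exact zero_mem _
  | add a b ha hb => rw [map_add]; exact add_mem ha hb
  | tmul a c => exact tmul_mem_TyK a (h.wp_mem k c)

theorem mem_TyK {x} : x ∈ TyK K T k ↔ (h.we k).baseChange K x = x :=
  ⟨fun hx => (h.we_TyK k hx).trans (if_pos rfl), fun e => e ▸ h.we_mem k x⟩

theorem TyK_odd (e : Odd k) : TyK K T k = ⊥ := eq_bot_iff.2 fun _ hx =>
  TyK.induction (P := fun x => x ∈ (⊥ : Submodule K _)) hx (zero_mem _) (fun _ _ => add_mem)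
    fun a c hc => by
      rw [show c = 0 from Subtype.ext ((h.wp_self hc).symm.trans (h.wp_ev_odd c.2 e)), tmul_zero]
      exact zero_mem _

end BG

end bc

section quo

variable {A W : Type} [NormedRing A] [NormedAlgebra ℂ A] [NormedAddCommGroup W] [NormedSpace ℂ W]
  [FiniteDimensional ℂ A] [FiniteDimensional ℂ W] {act : A → W → W} [IsAct act univ]
  {S Z : Set W} {p q : ℤ}

theorem HT_isDeg {Y : Type} [TopologicalSpace Y] {π : S → Y} {c : H Y} (hc : c ∈ HT S π p q) :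
    H.IsDeg (p + q) c := by
  unfold HT at hc
  split_ifs at hc with h
  · have := IsHd.isDeg hc
    rwa [Nat.cast_add, Int.toNat_of_nonneg h.1, Int.toNat_of_nonneg h.2] at this
  · exact (Submodule.mem_bot _).1 hc ▸ (H.deg _ _).zero_mem

theorem map_HT {W' Y Y' : Type} [NormedAddCommGroup W'] [NormedSpace ℂ W'] [FiniteDimensional ℂ W']
    [TopologicalSpace Y] [TopologicalSpace Y'] {S' : Set W'} {π : S → Y} {π' : S' → Y'}
    (hS : ∀ x ∈ S, ∃ k, MfdAt S k x) {g : C(Y, Y')} (hg : HolM S π S' π' g) (p q : ℤ) :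
    ∀ c ∈ HT S' π' p q, H.map g c ∈ HT S π p q := fun c hc => by
  unfold HT at hc ⊢
  split_ifs at hc ⊢ with h0
  · exact IsHd.pull_lift' hS _ hg hc
  · rw [(Submodule.mem_bot _).1 hc, map_zero]
    exact zero_mem _

/-- **extension by zero preserves the types** -/
theorem ext0_mem {Y Y' : Type} [TopologicalSpace Y] [TopologicalSpace Y'] {π : S → Y} {π' : Z → Y'}
    (hπ : Continuous π) (e : Z ⊆ S) {U : Set Y} (hU : IsClopen U) (hZ : ∀ x, π x ∈ U ↔ x.1 ∈ Z)
    {r : C(Y, Y')} (hr : ∀ x : Z, r (π ⟨x, e x.2⟩) = π' x) (p q : ℤ) :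
    ∀ a ∈ HT Z π' p q, ext0 U r a ∈ HT S π p q := fun a ha => by
  classical
  unfold HT at ha ⊢
  split_ifs at ha ⊢ with h0
  swap
  · rw [(Submodule.mem_bot _).1 ha, map_zero]
    exact zero_mem _
  obtain ⟨t, h1, rfl, h2, h3⟩ := isHd_iff.1 ha
  have c1 := cocycle_fn.2 (TopP.lc_ind hU)
  have c2 := cocycle_pull r.continuous h1
  refine isHd_iff.2 ⟨fn (U.indicator 1) * pull r t, cocycle_mul c1 c2,
    by rw [hcls_mul c1 c2, ext0_apply, H.map_hcls _ h1],
    ((isDeg_fn _).mul (h2.pull _)).cast (zero_add _), fun x => ?_⟩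
  have v : ∀ y : Fin (p.toNat + q.toNat + 1) → S,
      (fn (U.indicator 1) * pull r t).1 (List.ofFn fun i => π (y i)) =
        U.indicator 1 (π (y 0)) * t.1 (List.ofFn fun i => r (π (y i))) := fun y => by
    rw [mul_val_of_isDeg (p := 0) (isDeg_fn _) _ _ (by simp), List.drop_zero, pull_val,
      List.map_ofFn, List.ofFn_succ]
    rfl
  by_cases hx : x.1 ∈ Z
  · obtain ⟨f, f1, f2, f3⟩ := h3 ⟨x, hx⟩
    have o : ∀ᶠ y in 𝓝 x, y.1 ∈ Z := by
      filter_upwards [hπ.continuousAt.eventually (hU.isOpen.mem_nhds ((hZ x).2 hx))] with y hy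
        using (hZ y).1 hy
    let s : S → Z := fun y => if h : y.1 ∈ Z then ⟨_, h⟩ else ⟨_, hx⟩
    have h7 : ∀ᶠ y in 𝓝 x, y.1 ∈ Z ∧ (s y).1 = y.1 := o.mono fun y k => ⟨k, by simp only [s, dif_pos k]⟩
    have h8 : Tendsto s (𝓝 x) (𝓝 ⟨_, hx⟩) := tendsto_subtype_rng.2
      (continuous_subtype_val.continuousAt.tendsto.congr' (h7.mono fun _ k => k.2.symm))
    refine ⟨f, f1, ?_, fun z w hw => f3 z w fun i Φ k1 k2 => hw i Φ k1 ?_⟩
    · filter_upwards [(tendsto_diag h8).eventually f2, ev_diag h7] with y k1 k2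
      rw [v, indicator_of_mem ((hZ _).2 (k2 0).1), Pi.one_apply, one_mul,
        ← funext fun i => (k2 i).2, ← k1]
      exact congrArg (fun g => t.1 (List.ofFn g)) (funext fun i =>
        (congrArg (fun u => r (π u)) (Subtype.ext (k2 i).2.symm)).trans (hr (s (y i))))
    · filter_upwards [k2, (ev_sub x.2 (p := fun s => s ∈ Z)).1 o] with y a b c using a (b c)
  · refine ⟨fun _ => 0, contDiff_const, ?_, fun _ _ _ => by simp [frm]⟩
    filter_upwards [ev_diag (hπ.continuousAt.eventually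
      (hU.compl.isOpen.mem_nhds (mt (hZ x).1 hx)))] with y hy
    rw [v, indicator_of_notMem (hy 0), zero_mul]

/-- locally constant functions have type `(0, 0)` -/
theorem fn_mem {Y : Type} [TopologicalSpace Y] {π : S → Y} (hπ : Continuous π) {g : Y → ℂ}
    (hg : IsLocallyConstant g) : hcls (fn g) ∈ HT S π 0 0 :=
  (HT_nat S π 0 0).ge (isHd_iff.2 ⟨fn g, cocycle_fn.2 hg, rfl, isDeg_fn g, fun x =>
    ⟨fun _ => g (π x), contDiff_const, (ev_diag (hπ.continuousAt.eventually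
      (hg.eventually_eq (π x)))).mono fun _ hy => hy 0, fun t v _ => by
        rw [show t • v = v from funext fun i => i.elim0, pow_zero, pow_zero, one_mul, one_mul]⟩⟩)

theorem idU_mem {Y : Type} [TopologicalSpace Y] {π : S → Y} (hπ : Continuous π) {U : Set Y}
    (hU : IsClopen U) : idU U ∈ HT S π 0 0 := fn_mem hπ (TopP.lc_ind hU)

/-- an invariant open and closed part -/
theorem clopen_range (hS : ∀ a, IsUnit a → ∀ x ∈ S, act a x ∈ S) (e : Z ⊆ S)
    (hZ : ∀ a, IsUnit a → ∀ x ∈ Z, act a x ∈ Z) (hc : IsClopen (Subtype.val ⁻¹' Z : Set S)) :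
    IsEmbedding (qinc act e) ∧ IsClopen (range (qinc act e)) ∧
      ∀ x : S, Quo.mk act x ∈ range (qinc act e) ↔ x.1 ∈ Z := by
  have : IsAct act S := IsAct.mono ‹_› (subset_univ _) hS
  have : IsAct act Z := IsAct.mono ‹_› (subset_univ _) hZ
  exact ⟨(isOpenEmbedding_qinc e hc.isOpen).isEmbedding,
    ⟨(isClosedEmbedding_qinc e hc.isClosed).isClosed_range,
      (isOpenEmbedding_qinc e hc.isOpen).isOpen_range⟩, fun x => mk_mem_range_qinc (x := x) e⟩

/-- the type of a class on an open and closed part is that of its restriction -/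
theorem idU_mul_mem (hS : ∀ a, IsUnit a → ∀ x ∈ S, act a x ∈ S) (e : Z ⊆ S)
    (hZ : ∀ a, IsUnit a → ∀ x ∈ Z, act a x ∈ Z) (hc : IsClopen (Subtype.val ⁻¹' Z : Set S))
    {c : H (Quo act S)} (h : H.map (qinc act e) c ∈ QT act Z p q) :
    idU (range (qinc act e)) * c ∈ QT act S p q := by
  obtain ⟨h1, h2, h3⟩ := clopen_range hS e hZ hc
  cases isEmpty_or_nonempty (Quo act Z) with
  | inl _ =>
    rw [range_eq_empty, idU, indicator_empty', TopP.fn_zero, hcls_zero, zero_mul]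
    exact zero_mem _
  | inr _ =>
    obtain ⟨r, hr⟩ := TopP.exists_retr h1 h2
    exact ext0_map h2 hr c ▸ ext0_mem continuous_mk e h2 h3
      (fun x => h1.injective (hr _ ⟨Quo.mk act x, rfl⟩)) p q _ h

/-- **Hodge types on a projective manifold of mixed dimension** -/
theorem bg_of_mfd (hG : ∀ Z n (h : QM act Z n), Prj act Z → HG h.ps (QT act Z)) [h : FP act S]
    (lin : ∀ a, IsUnit a → IsLinearMap ℂ (act a)) [CompactSpace (Quo act S)]
    (hm : ∀ x ∈ S, ∃ k, MfdAt S k x) (hp : Prj act S) : BG (QT act S) := by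
  have := FiniteDimensional.complete ℂ W
  have := h.lc
  let Z : ℕ → Set W := fun k => {x | MfdAt S k x}
  have e : ∀ k, Z k ⊆ S := fun k x hx => hx.mem
  have an : ∀ a, IsUnit a → ∀ x, AnalyticAt ℂ (act a) x := fun a ha x =>
    (LinearMap.toContinuousLinearMap ((lin a ha).mk' _)).analyticAt x
  have i1 : ∀ (a : Aˣ) x, act a⁻¹.1 (act a x) = x := fun a x => by
    rw [← IsAct.mul (act := act) _ _ a⁻¹.isUnit a.isUnit x (mem_univ x), Units.inv_mul,
      IsAct.one (act := act) x (mem_univ x)]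
  have iv : ∀ k a, IsUnit a → ∀ x ∈ Z k, act a x ∈ Z k := by
    rintro k _ ⟨a, rfl⟩ x hx
    exact MfdAt.iso hx (G := act a⁻¹.1) (an _ a.isUnit _) (an _ a⁻¹.isUnit _)
      (.of_forall fun s hs => ⟨h.mem _ a.isUnit s hs, i1 a s⟩)
      (.of_forall fun s hs => ⟨h.mem _ a⁻¹.isUnit s hs, i1 a⁻¹ s⟩)
  have op : ∀ k, IsOpen (Subtype.val ⁻¹' Z k : Set S) := fun k =>
    isOpen_iff_mem_nhds.2 fun x hx => (ev_sub x.2 (p := fun s => s ∈ Z k)).2 (MfdAt.eventually hx)
  have cl : ∀ k, IsClopen (Subtype.val ⁻¹' Z k : Set S) := fun k => ⟨⟨isOpen_iff_mem_nhds.2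
    fun x hx => let ⟨n, hn⟩ := hm x x.2
      mem_of_superset ((op n).mem_nhds hn) fun y a b => hx (MfdAt.unique a b ▸ hn)⟩, op k⟩
  have mf : ∀ k, ∀ x ∈ Z k, MfdAt (Z k) k x := fun k x hx =>
    MfdAt.congr hx ((MfdAt.eventually hx).mono fun s a => ⟨a, @e k s⟩)
  have hq : ∀ k, QM act (Z k) (k - Module.finrank ℂ A) := fun k => by
    have := QMA.fp_sub h (e k) (iv k) (IsOpenEmbedding.inclusion (e k) (op k)).locallyCompactSpace
    have := (isClosedEmbedding_qinc (act := act) (e k) (cl k).isClosed).compactSpace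
    exact .of_mfd lin fun x hx => ⟨k, by ring, mf k x hx⟩
  let ι := {k : Fin (Module.finrank ℂ W + 1) // (Z k).Nonempty}
  have := Fintype.ofFinite ι
  have cr := fun k => clopen_range h.mem (e k) (iv k) (cl k)
  choose r hr using fun i : ι =>
    haveI : Nonempty (Quo act (Z i.1)) := ⟨Quo.mk act ⟨_, i.2.some_mem⟩⟩
    TopP.exists_retr (cr i.1).1 (cr i.1).2.1
  refine BG.glue (fun i : ι => bg_of_hg (hG _ _ (hq i.1) (prj_mono hp (e _))))
    (fun i => qinc act (e i.1)) (fun i => ext0 (range (qinc act (e i.1))) (r i)) (fun c => ?_)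
    (fun _ _ _ => HT_isDeg) (fun i _ _ _ => map_mem_QT (hq i.1) (Tq.Hol.incl (e i.1)))
    fun i => ext0_mem continuous_mk (e i.1) (cr _).2.1 (cr _).2.2 fun x =>
      (cr _).1.injective (hr i _ ⟨Quo.mk act x, rfl⟩)
  rw [Finset.sum_congr rfl fun i _ => ext0_map (cr _).2.1 (hr i) c, ← Finset.sum_mul,
    sum_idU (fun i : ι => (cr i.1).2.1) (mk_surj.forall.2 fun x => ?_), one_mul]
  obtain ⟨n, hn⟩ := hm x x.2
  have : n ≤ Module.finrank ℂ W := hn.2.finrank_tan ▸ Submodule.finrank_le _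
  exact ⟨⟨⟨n, by omega⟩, x, hn⟩, ((cr n).2.2 x).2 hn, fun j hj =>
    Subtype.ext (Fin.ext (MfdAt.unique (((cr _).2.2 x).1 hj) hn))⟩

end quo

end Vale.Agent.P287Q.Lam
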