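import Vale.Agent.P287Q.G.Glu.FpB
import Vale.Agent.P287Q.G.Prj.Tgt
import Vale.Agent.P287Q.G.Bas.Ev
import Vale.Agent.P287Q.Hb.QM

/-!
# The fundamental class of the fibre product of the total space with itself
-/

set_option linter.unusedSectionVars false
set_option linter.style.haveILetI false

namespace Vale.Agent.P269

open P291Z Set Function Topology Filter Holo Mono Tq Module

namespace X3F

section gen

variable {A W : Type} [NormedRing A] [NormedAlgebra ℂ A] [NormedAddCommGroup W] [NormedSpace ℂ W]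
  [FiniteDimensional ℂ A] [FiniteDimensional ℂ W] {act : A → W → W} {O : Set W} {d : ℕ}

theorem fre [h : FP act O] {x : W} (hx : x ∈ O) : Fre act x := fun _ ha e =>
  congrArg Units.val (h.free (Sp.of act x hx) ha.unit (Sp.ext e))

theorem cyc [h : FP act O] (hd : Dim act O d) : Cyc act O O d :=
  (pcy_self hd).cyc h.mem fun _ hx => subset_closure ⟨hx, fre hx⟩

theorem fp_of_orb [h : IsAct act O] (ho : Orb.Orb Aˣ (Sp act O)) (hf : ∀ x ∈ O, Fre act x) :
    FP act O :=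
  { h with
    proper := ho.proper
    lc := ho.nice.lc
    free := fun x g e => Units.ext (hf _ x.val_mem _ g.isUnit (congrArg Sp.val e)) }

end gen

variable {S Λ R J K : Type} [Fintype S] [Fintype Λ] [Fintype R] [Fintype J] [Fintype K]

/-- the reassociated action on pairs -/
noncomputable def act4 (F : Wt S Λ R J) (t : (S → ℂ) × (R → ℂ) × (R → ℂ))
    (z : ((Λ → ℂ) × (J → ℂ)) × (J → ℂ)) : ((Λ → ℂ) × (J → ℂ)) × (J → ℂ) :=
  (F.actT (t.1, t.2.1) z.1, (F.actT (t.1, t.2.2) (z.1.1, z.2)).2)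

theorem isAct4 (F : Wt S Λ R J) : IsAct (act4 F) univ :=
  ⟨fun x _ => Prod.ext (F.actT_one x.1) (congrArg Prod.snd (F.actT_one (x.1.1, x.2)) :),
    fun a b _ _ x _ => Prod.ext (F.actT_mul (a.1, a.2.1) (b.1, b.2.1) x.1)
      (congrArg Prod.snd (F.actT_mul (a.1, a.2.2) (b.1, b.2.2) (x.1.1, x.2)) :),
    fun _ _ _ _ => trivial, fun a ha x _ =>
      (F.an_actT (t := fun p : _ × _ => (p.1.1, p.1.2.1)) (z := fun p => p.2.1) (q := (a, x))
        ((analyticAt_fst.comp analyticAt_fst).prod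
          (analyticAt_fst.comp (analyticAt_snd.comp analyticAt_fst)))
        (analyticAt_fst.comp analyticAt_snd) (Wt.isUnit3 ha).1).prod
      (analyticAt_snd.comp (F.an_actT (t := fun p : _ × _ => (p.1.1, p.1.2.2))
        (z := fun p => (p.2.1.1, p.2.2)) (q := (a, x)) ((analyticAt_fst.comp analyticAt_fst).prod
          (analyticAt_snd.comp (analyticAt_snd.comp analyticAt_fst)))
        ((analyticAt_fst.comp (analyticAt_fst.comp analyticAt_snd)).prod
          (analyticAt_snd.comp analyticAt_snd)) (Wt.isUnit3 ha).2))⟩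

theorem lin4 (F : Wt S Λ R J) (a : (S → ℂ) × (R → ℂ) × (R → ℂ)) (ha : IsUnit a) :
    IsLinearMap ℂ (act4 F a) :=
  have h₁ := F.lin_actT _ (Wt.isUnit3 ha).1
  have h₂ := F.lin_actT _ (Wt.isUnit3 ha).2
  ⟨fun x y => Prod.ext (h₁.map_add x.1 y.1)
      (congrArg Prod.snd (h₂.map_add (x.1.1, x.2) (y.1.1, y.2)) :),
    fun c x => Prod.ext (h₁.map_smul c x.1) (congrArg Prod.snd (h₂.map_smul c (x.1.1, x.2)) :)⟩

variable (S R) in
/-- the first projection of the tori -/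
noncomputable def t₁ : CL ((S → ℂ) × (R → ℂ) × (R → ℂ)) ((S → ℂ) × (R → ℂ)) :=
  (ContinuousLinearMap.id ℂ _).prodMap (.fst ℂ _ _)

variable (S R) in
/-- the second projection of the tori -/
noncomputable def t₂ : CL ((S → ℂ) × (R → ℂ) × (R → ℂ)) ((S → ℂ) × (R → ℂ)) :=
  (ContinuousLinearMap.id ℂ _).prodMap (.snd ℂ _ _)

theorem fp4 (F : Wt S Λ R J) : Fp (act4 F) F.actT F.actT F.actL (t₁ S R) (t₂ S R) (.fst ℂ _ _)
    (.fst ℂ _ _) (.fst ℂ _ _) :=
  ⟨⟨rfl, fun _ _ => rfl⟩, ⟨rfl, fun _ _ => rfl⟩, ⟨rfl, fun _ _ => rfl⟩, ⟨rfl, fun _ _ => rfl⟩,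
    Prod.fst_surjective, Prod.fst_surjective, fun _ => rfl,
    fun a b e => ⟨(a.1, a.2, b.2), rfl, Prod.ext e rfl⟩,
    fun _ e e' => Prod.ext (congrArg Prod.fst e :)
      (Prod.ext (congrArg Prod.snd e :) (congrArg Prod.snd e' :)),
    fun _ _ _ => rfl, fun _ _ _ => rfl, fun _ _ _ => rfl, fun _ _ _ => rfl, fun _ _ _ _ _ => rfl⟩

variable (F : Fam S Λ R J K)

/-- the reassociated set of pairs -/
abbrev cone4 : Set (((Λ → ℂ) × (J → ℂ)) × (J → ℂ)) := fpS (.fst ℂ _ _) F.cone F.cone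

theorem an34 (z : (Λ → ℂ) × (J → ℂ) × (J → ℂ)) : AnalyticAt ℂ (fun z => ((z.1, z.2.1), z.2.2)) z :=
  (analyticAt_fst.prod (analyticAt_fst.comp analyticAt_snd)).prod
    (analyticAt_snd.comp analyticAt_snd)

theorem an43 (z : ((Λ → ℂ) × (J → ℂ)) × (J → ℂ)) : AnalyticAt ℂ (fun z => (z.1.1, z.1.2, z.2)) z :=
  (analyticAt_fst.comp analyticAt_fst).prod
    ((analyticAt_snd.comp analyticAt_fst).prod analyticAt_snd)

theorem hol34 : Hol F.act3 (act4 F.toWt) F.cone3 (cone4 F) (fun a => a)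
    fun z => ((z.1, z.2.1), z.2.2) :=
  haveI := isAct4 F.toWt
  .of_an Hm.id (fun _ h => h) (fun z _ => an34 z) fun _ _ _ _ => rfl

theorem hol43 : Hol (act4 F.toWt) F.act3 (cone4 F) F.cone3 (fun a => a)
    fun z => (z.1.1, z.1.2, z.2) :=
  haveI := isAct4 F.toWt
  .of_an Hm.id (fun _ h => h) (fun z _ => an43 z) fun _ _ _ _ => rfl

theorem homeo34 : IsHomeomorph (hol34 F).q :=
  ((hol34 F).toEqh.toEqv.homeo (hol43 F).toEqh.toEqv
    (fun x _ => ⟨1, isUnit_one, (F.act3_one x).symm⟩)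
    fun x _ => ⟨1, isUnit_one, ((isAct4 F.toWt).one x trivial).symm⟩).isHomeomorph

variable {F} {b : ℕ}
  (h₁ : Hol F.act3 F.actT F.cone3 F.cone (fun t => (t.1, t.2.1)) fun z => (z.1, z.2.1))
  (h₂ : Hol F.act3 F.actT F.cone3 F.cone (fun t => (t.1, t.2.2)) fun z => (z.1, z.2.2))

theorem q_eq (z : F.X3) : (h₁.q z, h₂.q z) = ((fp4 F.toWt).eqM₁.map ((hol34 F).q z),
    (fp4 F.toWt).eqM₂.map ((hol34 F).q z)) := by
  obtain ⟨z, rfl⟩ := mk_surj z
  rfl

/-- **the fibre product is the set of pairs with the same base point** -/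
theorem emb (hB : BsOk F.actL F.B b) (hi : Ivt F.actT F.cone) :
    IsClosedEmbedding (fun z : F.X3 => (h₁.q z, h₂.q z)) ∧
      range (fun z : F.X3 => (h₁.q z, h₂.q z)) =
        {p | F.eqh_fst.toEqv.qm p.1 = F.eqh_fst.toEqv.qm p.2} := by
  haveI := isAct4 F.toWt
  obtain ⟨i1, i2⟩ := (fp4 F.toWt).isClosedEmbedding hB hi hi (fun _ h => h.1) fun _ h => h.1
  rw [funext (q_eq h₁ h₂)]
  exact ⟨i1.comp (homeo34 F).isClosedEmbedding,
    ((homeo34 F).surjective.range_comp _).trans i2⟩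

/-- **the fundamental class of the fibre product** (free proper actions on manifolds) -/
theorem fnd_eq' {n m : ℕ} [FP F.actT F.cone] [FP F.act3 F.cone3] (h : Dim F.actT F.cone n)
    (h3 : Dim F.act3 F.cone3 m) (hB : BsOk F.actL F.B b) [IsAct F.actL F.B] [Nice (F.Bs F.B)]
    {Δ : Coch (F.Bs F.B × F.Bs F.B)} (hΔ : IsDB F.actL F.B b Δ) (hpr : PrB F.B F.cone)
    (hd : F.cone3.Nonempty → m + b = n + n) :
    gys (fun z : F.X3 => (h₁.q z, h₂.q z))
      (pull (Prod.map F.eqh_fst.toEqv.qm F.eqh_fst.toEqv.qm) Δ)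
      (cross Prod.fst Prod.snd (Tq.fnd F.actT F.cone) (Tq.fnd F.actT F.cone)) =
      Tq.fnd F.act3 F.cone3 := by
  haveI := isAct4 F.toWt
  have k := fp4 F.toWt
  have hi : Ivt F.actT F.cone := IsAct.mem
  haveI : IsAct (act4 F.toWt) (cone4 F) := IsAct.mono inferInstance (subset_univ _) (k.ivt hi hi)
  have ho := Tq.orb F.actT F.cone
  haveI : FP (act4 F.toWt) (cone4 F) := fp_of_orb (k.orb ho ho) fun x hx => k.fre (fre hx.1) (fre hx.2)
  have h4 : Dim (act4 F.toWt) (cone4 F) m := fun x hx =>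
    (h3 (x.1.1, x.1.2, x.2) hx).iso (F := fun z => ((z.1, z.2.1), z.2.2))
      (G := fun z => (z.1.1, z.1.2, z.2)) (an34 _) (an43 _) (.of_forall fun _ e => ⟨e, rfl⟩)
      (.of_forall fun _ e => ⟨e, rfl⟩)
  have e := k.fnd_eq hB hΔ ho ho (fun _ h => h.1) (fun _ h => h.1) (cyc h) (cyc h) (cyc h4)
    (fun ⟨x, hx⟩ => hd ⟨(x.1.1, x.1.2, x.2), hx⟩) hpr ⟨univ, isOpen_univ, (inter_univ _).symm⟩
  obtain ⟨i1, i2⟩ := k.isClosedEmbedding hB hi hi (fun _ h => h.1) fun _ h => h.1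
  obtain ⟨j1, j2⟩ := emb h₁ h₂ hB hi
  have c := (F.eqh_fst.toEqv.qm.continuous.prodMap F.eqh_fst.toEqv.qm.continuous)
  have g := res_gys i1 j1 IsOpenEmbedding.id (homeo34 F).isOpenEmbedding (q_eq h₁ h₂)
    (i2.trans j2.symm).le (cocycle_pull c hΔ.co.cocycle)
    ((supp_pull c Δ).trans fun p hp => i2.ge (let ⟨_, a⟩ := hΔ.co.supp hp
      (congrArg Prod.fst a).symm.trans (congrArg Prod.snd a)))
    (cross Prod.fst Prod.snd (Tq.fnd F.actT F.cone) (Tq.fnd F.actT F.cone))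
  have r := res_push_homeo (e := id) IsHomeomorph.id
    (cross Prod.fst Prod.snd (Tq.fnd F.actT F.cone) (Tq.fnd F.actT F.cone))
  rw [push_id'] at r
  rw [pull_id, r] at g
  rw [← g, ← QMA.res_fnd h3 h4 (lin4 _) (hol34 F) (homeo34 F).isOpenEmbedding, h4.fnd_eq, h.fnd_eq]
  exact congrArg _ e

/-- **the fundamental class of the fibre product** -/
theorem fnd_eq {n m : ℤ} (h : QM F.actT F.cone n) (h3 : QM F.act3 F.cone3 m)
    (hB : BsOk F.actL F.B b) [IsAct F.actL F.B] [Nice (F.Bs F.B)] [Nice (F.X F.cone)]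
    {Δ : Coch (F.Bs F.B × F.Bs F.B)} (hΔ : IsDB F.actL F.B b Δ) (hpr : PrB F.B F.cone)
    (hd : F.cone3.Nonempty → m + b = n + n) :
    gys (fun z : F.X3 => (h₁.q z, h₂.q z))
      (pull (Prod.map F.eqh_fst.toEqv.qm F.eqh_fst.toEqv.qm) Δ)
      (cross Prod.fst Prod.snd (Tq.fnd F.actT F.cone) (Tq.fnd F.actT F.cone)) =
      Tq.fnd F.act3 F.cone3 :=
  haveI := h.fp
  haveI := h3.fp
  fnd_eq' h₁ h₂ h.dim h3.dim hB hΔ hpr fun ⟨x, hx⟩ => by
    have a := hd ⟨x, hx⟩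
    have a1 : 0 ≤ m := not_lt.1 fun c => (h3.neg c).subset hx
    have a2 : 0 ≤ n := not_lt.1 fun c => (h.neg c).subset hx.1
    omega

end X3F

end Vale.Agent.P269
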