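import Vale.Agent.P287Q.Lam.TG
import Vale.Agent.P287Q.Lam.X3F
import Vale.Agent.P287Q.G.Glu.Cas0
import Vale.Agent.P287Q.Lz.HS

/-! The class of the diagonal is the Casimir element. -/

set_option linter.unusedSectionVars false
set_option linter.style.haveILetI false

namespace Vale.Agent.P269

open Set Function Topology TensorProduct B Vale.Agent.P291Z Vale.Agent.P269.Ch
  Vale.Agent.P269.Orb Vale.Agent.P269.Loc LG

theorem X3F.dim3 {S Λ R J K : Type} [Fintype S] [Fintype Λ] [Fintype R] [Fintype J] [Fintype K]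
    {F : Fam S Λ R J K} {d b : ℕ} (h : Tq.Dim F.actT F.cone (d + b)) (hB : BsOk F.actL F.B b)
    (p : PrB F.B F.cone) : Tq.Dim F.act3 F.cone3 (d + d + b) := fun z hz => by
  have := (mfdAt_fpS (π := .fst ℂ _ _) (y := ((z.1, z.2.1), z.2.2)) (hB.mf _ hz.1.1)
    (fun _ h => h.1) p (h _ hz.1) (h (z.1, z.2.2) hz.2)).2
  have e := (X3F.fp4 F.toWt).finrank_eq
  rw [show _ - _ = Module.finrank ℂ ((S → ℂ) × (R → ℂ) × (R → ℂ)) + (d + d + b) by omega] at this
  exact this.iso (X3F.an43 _) (X3F.an34 _) (.of_forall fun _ e => ⟨e, rfl⟩)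
    (.of_forall fun _ e => ⟨e, rfl⟩)

namespace Lz.TG

variable {R J K σ : Type} [Fintype R] [Fintype J] [Fintype K] [Fintype σ] [DecidableEq R]
  [DecidableEq σ] {P : TT R J K σ} {K₀ : RD R} {k D : ℕ} {a : σ → ℂ} (t : TG P a)
  (h : P.Ok K₀ k D)

theorem q_i2 (M : ℕ) (x₁ x₂ : P.X) (b) :
    ((X3.hol₁ (P.EM M)).q (t.i2 M ((x₁, x₂), b)), (X3.hol₂ (P.EM M)).q (t.i2 M ((x₁, x₂), b))) =
      (t.i M (x₁, b), t.i M (x₂, b)) := by
  obtain ⟨z₁, rfl⟩ := Tq.mk_surj x₁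
  obtain ⟨z₂, rfl⟩ := Tq.mk_surj x₂
  obtain ⟨p, rfl⟩ := isOpenQuotientMap_bp.surjective b
  rw [(t.i2_mk M z₁ z₂ p).2, (t.i_mk M z₁ p).2, (t.i_mk M z₂ p).2]
  rfl

theorem d3_i (M : ℕ) (x : P.X × Bs σ M) : (X3.hold (P.EM M)).q (t.i M x) =
    t.i2 M (pr ((ContinuousMap.id _).prodMk (.id _)) M x) :=
  TT.X_ind (Q := fun x => (X3.hold (P.EM M)).q (t.i M x) =
    t.i2 M (pr ((ContinuousMap.id _).prodMk (.id _)) M x)) (fun z p =>
      (congrArg _ (t.i_mk M z p).2).trans (t.i2_mk M z z p).2.symm) x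

theorem b_i (M : ℕ) (x : P.X × Bs σ M) : (h.lv M).b (t.i M x) = x.2 :=
  TT.X_ind (Q := fun x => (h.lv M).b (t.i M x) = x.2)
    (fun z p => (congrArg _ (t.i_mk M z p).2).trans (h.b_mk ..)) x

include h

/-- the contribution of the square of the fixed locus -/
theorem exists_I3 : haveI := fun M => X3.nice (h.good_EM M)
    ∃ I, IsLoc (chiA a) (fun M => Tq.fnd (P.EM M).act3 (P.EM M).cone3) t.i2 I ∧
      ∀ x₁ x₂, I (pb F .fst x₁ * pb F .snd x₂) = t.I x₁ * t.I x₂ := by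
  haveI := t.nice; haveI := t.niceX; haveI := t.cptX
  haveI := fun M => X3.nice (h.good_EM M)
  have hB := fun M => HSF.bsOk (TT.actL_EM (P := P) (M := M))
  haveI := fun M => (hB M).isAct
  haveI := fun M => (hB M).nice
  choose eB Δ hΔ e1 e2 using fun M => HSF.exists_dg (TT.actL_EM (P := P) (M := M))
  have E := fun M => X3F.emb (X3.hol₁ (P.EM M)) (X3.hol₂ _) (hB M) (h.good_EM M).fp.mem
  have q : ∀ M x, (P.EM M).eqh_fst.toEqv.qm (t.i M x) = eB M x.2 := fun M =>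
    TT.X_ind fun z p => (congrArg _ (t.i_mk M z p).2).trans (e1 M p).symm
  obtain ⟨I, hI, mul⟩ := t.loc.prod t.loc (fun M => (E M).1)
    (θ := fun M => pull (Prod.map (P.EM M).eqh_fst.toEqv.qm (P.EM M).eqh_fst.toEqv.qm) (Δ M))
    (fun M => IsCo.mono' (IsCo.pull' (hΔ M).co ((P.EM M).eqh_fst.toEqv.qm.prodMap
      (P.EM M).eqh_fst.toEqv.qm).continuous) fun z ⟨y, e⟩ => (E M).2.ge
      ((congrArg Prod.fst e).symm.trans (congrArg Prod.snd e))) t.q_i2
    (fun M x ⟨u, hu⟩ ⟨v, hv⟩ => by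
      have e : u.2 = v.2 := by
        rw [← t.b_i h M u, ← t.b_i h M v, hu, hv]
        obtain ⟨⟨⟨l, y, y'⟩, c⟩, rfl⟩ := Tq.mk_surj x
        obtain ⟨p, rfl⟩ := exists_pm c.1.1
        exact (h.b_mk p y c.1).trans (h.b_mk p y' c.2).symm
      exact ⟨((u.1, v.1), u.2), (E M).1.injective ((t.q_i2 M ..).trans
        (Prod.ext hu ((congrArg (fun b => t.i M (v.1, b)) e).trans hv)))⟩) fun M => by
      rw [← e2, H.map_map]
      refine (congrArg _ (H.map_hcls ((P.EM M).eqh_fst.toEqv.qm.prodMap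
        (P.EM M).eqh_fst.toEqv.qm) (hΔ M).co.cocycle).symm).trans ((H.map_map ..).trans ?_)
      exact congrArg (H.map · _) (ContinuousMap.ext fun z => Prod.ext (q M z.1) (q M z.2))
  refine ⟨I, (congrArg (IsLoc _ · _ _) (funext fun M => ?_)).mp hI, mul⟩
  haveI := (h.good_EM M).fp
  haveI := (h.good_EM M).fp3
  have p : PrB (P.EM M).B (P.EM M).cone := fun _ e =>
    ⟨e.1, fun _ e' => TT.mem_fam (TT.mem_E (l := Empty.elim) e) e'⟩
  exact X3F.fnd_eq' _ _ (h.dim_EM M) (X3F.dim3 (h.dim_EM M) (hB M) p) (hB M) (hΔ M) p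
    fun _ => by omega

variable (ha : LinearIndependent ℚ a)
include ha

/-- **the class of the diagonal is the Casimir element** -/
theorem cas : t.Cas := fun ι _ e f hs y => by
  haveI := t.nice; haveI := t.niceX; haveI := t.cptX
  haveI := fun M => X3.nice (h.good_EM M)
  obtain ⟨I, hI, mul⟩ := t.exists_I3 h
  choose u hu using fun M => X3.exists_isD3 (h.niceEM M)
  choose d hd using fun M => (hu M).co
  have hg := fun M => (hu M).gys
  simp only [X3.d3_eq] at hd hg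
  have E := fun M => X3.emb (h.good_EM M)
  refine cas_of (fun _ => t.nondeg h ha) mul (inF_comm _) (fun x => ?_) hs y
  rw [TG.dg, inF_bc]
  refine t.loc.gys_eq hI E hd (fun M => (Gys_iff (E M) (hd M).cocycle (hd M).supp).1 (hg M))
    t.d3_i (fun M z ⟨⟨⟨x₁, x₂⟩, b⟩, e⟩ => ⟨(x₁, b), ?_⟩) (fun M => t.hδ M _ (hu M)) x
  exact (congrArg Prod.fst (t.q_i2 M x₁ x₂ b)).symm.trans
    ((congrArg (X3.hol₁ (P.EM M)).q e).trans (X3.q₁_d _ z))

theorem exists_cas : ∃ (n : ℕ) (e f : Fin n → F ⊗[ℂ] H P.X),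
    inF _ t.dg = ∑ b, pb F .fst (e b) * pb F .snd (f b) ∧ ∀ y, ∑ b, t.I (y * e b) • f b = y :=
  haveI := t.niceX; haveI := t.cptX
  let ⟨n, e, f, s⟩ := exists_sum (inF _ t.dg)
  ⟨n, e, f, s, t.cas h ha _ e f s⟩

end Lz.TG

end Vale.Agent.P269
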