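import Vale.Agent.P287Q.Lz.Lev
import Vale.Agent.P287Q.Lz.NdL
import Vale.Agent.P287Q.Lz.Pk
import Vale.Agent.P287Q.Lz.Vtx
import Vale.Agent.P287Q.Lam.SyB

/-! The lattice of equivariant classes: the side of the moduli spaces. -/

set_option linter.unusedSectionVars false
set_option linter.style.haveILetI false
set_option maxSynthPendingDepth 3

namespace Vale.Agent.P269.Lz

open Set Function Topology Filter TensorProduct B Vale.Agent.P291Z Vale.Agent.P269.Ch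
  Vale.Agent.P269.Orb Vale.Agent.P269.Loc LG

namespace Mo

variable {σ : Type} [Fintype σ] {X X' : ℕ → Type} [∀ M, TopologicalSpace (X M)]
  [∀ M, TopologicalSpace (X' M)] {A A' : Type} [TopologicalSpace A] [TopologicalSpace A']
  {k : ∀ M, C(X M, X (M + 1))} {i : ∀ M, C(A × Bs σ M, X M)} {k' : ∀ M, C(X' M, X' (M + 1))}
  {i' : ∀ M, C(A' × Bs σ M, X' M)} {χ : Loc.R σ →ₐ[ℂ] F} {α α' : ∀ M, H (X M)}
  {y y' : F ⊗[ℂ] H A}

theorem lf_mul (h : Lf k i χ α y) (h' : Lf k i χ α' y') : Lf k i χ (α * α') (y * y') :=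
  let ⟨a, x, b, c⟩ := h
  let ⟨a', x', b', c'⟩ := h'
  ⟨Tws.mul a a', x * x', fun M => by rw [map_mul, ← b, ← b', ← map_mul]; rfl, by rw [map_mul, c, c']⟩

theorem lf_add (h : Lf k i χ α y) (h' : Lf k i χ α' y') : Lf k i χ (α + α') (y + y') :=
  let ⟨a, x, b, c⟩ := h
  let ⟨a', x', b', c'⟩ := h'
  ⟨add_mem a a', x + x', fun M => by rw [map_add, ← b, ← b', ← map_add]; rfl, by rw [map_add, c, c']⟩

theorem lf_smul (h : Lf k i χ α y) (z : ℂ) : Lf k i χ (z • α) (z • y) :=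
  let ⟨a, x, b, c⟩ := h
  ⟨Submodule.smul_mem _ z a, z • x, fun M => by rw [map_smul, ← b, ← H.map_smulC]; rfl, by
    rw [map_smul, c]⟩

theorem lf_one : Lf k i χ 1 1 :=
  ⟨Tws.one, 1, fun _ => (map_one _).trans (map_one _).symm, map_one _⟩

theorem par_evA (M : ℕ) (x : Loc.R σ ⊗[ℂ] H A) :
    (parH _).σ (evA A M x) = evA A M (((parH A).bc _).σ x) := by
  induction x with
  | zero => simp only [map_zero]
  | add a b ha hb => simp only [map_add, ha, hb]
  | tmul f c =>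
    rw [Fock.Par.bc_σ, evA_tmul, evA_tmul, parH_mul, parH_ev (map_mem_Hev _ (lam_mem M f)), parH_map]

theorem par_bc (x : Loc.R σ ⊗[ℂ] H A) :
    ((parH A).bc F).σ (bc _ χ x) = bc _ χ (((parH A).bc _).σ x) := by
  induction x with
  | zero => simp only [map_zero]
  | add a b ha hb => simp only [map_add, ha, hb]
  | tmul f c => rfl

theorem par_tws (h : α ∈ Tws k) : (fun M => (parH _).σ (α M)) ∈ Tws k := by
  induction h using Submodule.span_induction with
  | zero => exact mem_of_eq_of_mem (funext fun M => map_zero _) (zero_mem _)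
  | add x y _ _ hx hy => exact mem_of_eq_of_mem (funext fun M => map_add _ _ _) (add_mem hx hy)
  | smul z x _ hx =>
    exact mem_of_eq_of_mem (funext fun M => (parH _).σ.map_smul _ _) (Submodule.smul_mem _ z hx)
  | mem α hα =>
    obtain ⟨h1, n, h2⟩ := hα
    exact mem_of_eq_of_mem (funext fun M => parH_deg (h2 M)) (Submodule.smul_mem _ _ (Tws.of h1 h2))

theorem lf_par (h : Lf k i χ α y) :
    Lf k i χ (fun M => (parH _).σ (α M)) (((parH A).bc F).σ y) :=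
  let ⟨a, x, b, c⟩ := h
  ⟨par_tws a, ((parH A).bc _).σ x, fun M => by rw [← parH_map, b, par_evA], by rw [← par_bc, c]⟩

variable (k i χ) in
/-- the even restrictions of equivariant classes -/
noncomputable def Gl : Subalgebra ℂ (F ⊗[ℂ] Hev A) where
  carrier := {x | ∃ α, Lf k i χ α (inF A x)}
  mul_mem' := fun ⟨_, a⟩ ⟨_, b⟩ => ⟨_, by rw [map_mul]; exact lf_mul a b⟩
  add_mem' := fun ⟨_, a⟩ ⟨_, b⟩ => ⟨_, by rw [map_add]; exact lf_add a b⟩
  algebraMap_mem' z := ⟨_, by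
    rw [Algebra.algebraMap_eq_smul_one, (inF A).map_smul_of_tower, map_one]
    exact lf_smul lf_one z⟩

theorem mem_Gl {x : F ⊗[ℂ] Hev A} : x ∈ Gl k i χ ↔ ∃ α, Lf k i χ α (inF A x) := Iff.rfl

theorem adjoin_eq : Algebra.adjoin ℂ {x | ∃ α, Lf k i χ α (inF A x)} = Gl k i χ :=
  Algebra.adjoin_eq (Gl k i χ)

/-- the even part of a restriction -/
theorem exists_ev (h : Lf k i χ α y) :
    ∃ c ∈ Gl k i χ, inF A c = (2⁻¹ : F) • (y + ((parH A).bc F).σ y) := by
  obtain ⟨c, e⟩ := add_par_mem y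
  have e' : inF A c = _ := e
  refine ⟨(2⁻¹ : ℂ) • c, Subalgebra.smul_mem _ (mem_Gl.2 ⟨_, e' ▸ lf_add h (lf_par h)⟩) _, ?_⟩
  rw [(inF A).map_smul_of_tower, e', ← algebraMap_smul F, map_inv₀, map_ofNat]

/-- odd classes do not contribute -/
theorem even_of [Nice A] [CompactSpace A] [∀ M, Nice (X M)] {β : ∀ M, BM (X M)}
    {I : F ⊗[ℂ] H A →ₗ[F] F} (h : IsLoc χ β i I) (hβ : ∀ M, ∃ m : ℤ, BM.IsDeg (2 * m) (β M))
    (x : F ⊗[ℂ] H A) : I (((parH A).bc F).σ x) = I x := by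
  induction x with
  | zero => simp only [map_zero]
  | add a b ha hb => simp only [map_add, ha, hb]
  | tmul z c =>
    refine H.induction_deg (P := fun c => I (((parH A).bc F).σ (z ⊗ₜ c)) = I (z ⊗ₜ c)) c
      (by simp only [tmul_zero, map_zero]) (fun _ _ a b => by simp only [tmul_add, map_add, a, b])
      fun n => ?_
    rw [Fock.Par.bc_σ, parH_deg (H.isDeg_comp n c)]
    rcases Int.even_or_odd n with e | e
    · rw [e.neg_one_zpow, one_smul]
    · rw [e.neg_one_zpow, neg_one_smul, tmul_neg, map_neg, h.odd hβ e (H.isDeg_comp n c), neg_zero]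

variable {f : ∀ M, C(X' M, X M)} {φ : C(A', A)} {b : ∀ M, C(X M, Bs σ M)}
  {b' : ∀ M, C(X' M, Bs σ M)}

theorem tws_comap (h : α ∈ Tws k) (e : ∀ M x, f (M + 1) (k' M x) = k M (f M x)) :
    (fun M => H.map (f M) (α M)) ∈ Tws k' := by
  induction h using Submodule.span_induction with
  | zero => exact mem_of_eq_of_mem (funext fun M => map_zero _) (zero_mem _)
  | add x y _ _ hx hy => exact mem_of_eq_of_mem (funext fun M => map_add _ _ _) (add_mem hx hy)
  | smul z x _ hx =>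
    exact mem_of_eq_of_mem (funext fun M => H.map_smulC _ _ _) (Submodule.smul_mem _ z hx)
  | mem α hα =>
    obtain ⟨h1, n, h2⟩ := hα
    refine Tws.of (fun M => ?_) fun M => (h2 M).map _
    rw [← h1 M, H.map_map, H.map_map]
    exact congrArg (H.map · _) (ContinuousMap.ext (e M))

theorem lf_comap (h : Lf k i χ α y) (e : ∀ M x, f (M + 1) (k' M x) = k M (f M x))
    (e' : ∀ M z, f M (i' M z) = i M (pr φ M z)) :
    Lf k' i' χ (fun M => H.map (f M) (α M)) (pb F φ y) :=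
  let ⟨a, x, b, c⟩ := h
  ⟨tws_comap a e, pb _ φ x, fun M => by
    rw [← map_evA, ← b, H.map_map, H.map_map]
    exact congrArg (H.map · _) (ContinuousMap.ext (e' M)), by rw [bc_pb, c]⟩

theorem Gl_comap {x} (h : x ∈ Gl k i χ) (e : ∀ M x, f (M + 1) (k' M x) = k M (f M x))
    (e' : ∀ M z, f M (i' M z) = i M (pr φ M z)) : pbE φ x ∈ Gl k' i' χ :=
  let ⟨_, a⟩ := h
  ⟨_, pb_inF φ x ▸ lf_comap a e e'⟩

variable [Nice A] [CompactSpace A] [Nice A'] [CompactSpace A'] [∀ M, Nice (X M)]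
  [∀ M, CompactSpace (X M)] [∀ M, Nice (X' M)] [∀ M, CompactSpace (X' M)]

theorem lf_eb (S : LG.Sy χ k i b) (g : Loc.R σ) : Lf k i χ (fun M => eb b M g) (χ g ⊗ₜ 1) :=
  ⟨S.eb_mem g, g ⊗ₜ 1, S.rs_eb g, rfl⟩

/-- **transfer of even classes** -/
theorem transfer (S : LG.Sy χ k i b) (S' : LG.Sy χ k' i' b') (m : MpB k' b' k b f)
    (e : ∀ M z, f M (i' M z) = i M (pr φ M z)) {d d' : ℤ} {β β' I I'} (hβ : IsB k b (2 * d) β)
    (ho : ∀ M : ℕ, Ori (2 * d + 2 * (Fintype.card σ * M)) (β M)) (hI : IsLoc χ β i I)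
    (hβ' : IsB k' b' d' β') (hI' : IsLoc χ β' i' I') {w} (hw : w ∈ Gl k' i' χ) :
    ∃ c ∈ Gl k i χ, ∀ y, I' (inF _ (pbE φ y * w)) = I (inF _ (c * y)) := by
  obtain ⟨α, a, x, a1, a2⟩ := hw
  obtain ⟨γ, c, z, c1, c2⟩ := S.transfer S' m e hβ ho hI hβ' hI' a a1
  obtain ⟨u, u1, u2⟩ := exists_ev (χ := χ) ⟨c, z, c1, rfl⟩
  refine ⟨u, u1, fun y => ?_⟩
  have v := even_of hI (fun M => ⟨_, mul_add (2 : ℤ) d _ ▸ hβ.deg M⟩) (inF _ y * bc _ χ z)
  rw [par_mul, par_inF] at v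
  rw [map_mul, ← pb_inF, ← a2, c2, mul_comm u, map_mul (inF A), u2, mul_smul_comm, mul_add, map_smul,
    map_add, v, smul_eq_mul, ← two_mul, inv_mul_cancel_left₀]
  rw [← map_ofNat (algebraMap ℂ F) 2]
  exact (map_ne_zero_iff _ (algebraMap ℂ F).injective).2 two_ne_zero

theorem map_opt {β : Type} (y : β) (l : List β) : (∅ᶜ : Finset (Option (Fin l.length))).val.map
    (fun o => o.elim y l.get) = y ::ₘ (l : Multiset β) := by
  rw [Finset.compl_empty]
  change (none ::ₘ Finset.univ.val.map some).map _ = _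
  rw [Multiset.map_cons, Multiset.map_map, Fin.univ_val_map]
  exact congrArg (fun u : List β => y ::ₘ (u : Multiset β)) (List.ofFn_get l)

end Mo

open Mo

variable {R J K σ ν : Type} [Fintype R] [Fintype J] [Fintype K] [Fintype σ] [Fintype ν]
  [DecidableEq R] [DecidableEq σ] {P : TT R J K σ} {K₀ : RD R} {k D : ℕ} {g : ℤ} {d : R → ℤ}
  {a : σ → ℂ} {τ : Md P ν g d}

variable (P ν k D g d) in
/-- the moduli space of maps to the Borel construction -/
abbrev TT.YM (M : ℕ) : Type :=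
  Quo (actF (P.EM M).toWt) (P.ZM ν (Fin 0) (P.ch ν k D g d) M)

variable {O : Set ((P.ch ν k D g d).WF ν (Fin 0) Empty)} {N : ℕ}

/-- the inclusions of the approximations -/
noncomputable abbrev TT.km (h : P.As K₀ O N) (M : ℕ) :
    C(P.YM ν k D g d M, P.YM ν k D g d (M + 1)) := (h.lv M).inc (h.lv (M + 1))

/-- the projections to the classifying space -/
noncomputable abbrev TT.bm (h : P.As K₀ O N) (M : ℕ) : C(P.YM ν k D g d M, Bs σ M) :=
  (bs h.tc.h.toTS M).comp (h.lv M).j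

theorem TT.bm_cl (h : P.As K₀ O N) (M : ℕ) (x hx p) : TT.bm h M ((h.lv M).cl x hx p) = bp p :=
  (congrArg (bs _ M) ((h.lv M).j_cl x hx p)).trans (bs_π _ _)

theorem TT.isB (h : P.As K₀ O N) : haveI := fun M => (h.lv M).nice
    haveI := fun M => (h.lv M).compactSpace
    IsB (TT.km h) (TT.bm h) (2 * (h.tc.n - h.tc.r)) fun M => (h.lv M).β :=
  haveI := fun M => (h.lv M).nice
  haveI := fun M => (h.lv M).compactSpace
  IsTw.isB (TC.pc h.lv).emb (TC.pc h.lv).rng (fun M => (h.lv M).j_inc _) (TC.isTw h.lv)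

theorem TT.ev_km (h : P.As K₀ O N) (t : TG P a) (n : ν) (M : ℕ) (z : P.YM ν k D g d M) :
    h.evM (M + 1) (.inl n) (TT.km h M z) = t.k M (h.evM M (.inl n) z) := by
  obtain ⟨x, hx, p, rfl⟩ := (h.lv M).cl_surj z
  obtain ⟨e, e1⟩ := h.evM_cl M (.inl n) x hx p
  obtain ⟨_, e2⟩ := h.evM_cl (M + 1) (.inl n) x hx p.inc
  obtain ⟨_, e3⟩ := t.k_mk M p _ e
  exact ((congrArg (h.evM _ _) ((h.lv M).inc_cl _ x hx p)).trans e2).trans
    ((congrArg (t.k M) e1).trans e3).symm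

theorem TT.mpB (h : P.As K₀ O N) (t : TG P a) {bt : ∀ M, C(P.XE M, Bs σ M)}
    (hb : ∀ M (p : PM σ M) y e, bt M (Quo.mk _ ⟨(uncurry p.val, y), e⟩) = bp p) (n : ν) :
    MpB (TT.km h) (TT.bm h) t.k bt fun M => h.evM M (.inl n) where
  k := TT.ev_km h t n
  b M z := by
    obtain ⟨x, hx, p, rfl⟩ := (h.lv M).cl_surj z
    obtain ⟨e, e1⟩ := h.evM_cl M (.inl n) x hx p
    exact ((congrArg (bt M) e1).trans (hb M p _ e)).trans (TT.bm_cl h M x hx p).symm

namespace Geo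

variable (G : Geo k D a τ) (hP : P.Ok K₀ k D) (h : P.As K₀ O N)

/-- the inclusion in the Borel construction -/
noncomputable def im (M : ℕ) : C(τ.A × Bs σ M, P.YM ν k D g d M) := G.i M

/-- the even restrictions of equivariant classes -/
noncomputable abbrev Gl : Subalgebra ℂ (F ⊗[ℂ] Hev τ.A) := Mo.Gl (TT.km h) G.im (chiA a)

include hP

theorem sy (ha : LinearIndependent ℚ a) : haveI := fun M => (h.lv M).nice
    LG.Sy (chiA a) (TT.km h) G.im (TT.bm h) :=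
  haveI := fun M => (h.lv M).nice
  haveI := fun M => (h.lv M).compactSpace
  Pc.sy (i := G.im) (G.pc hP h) (chiA_lin_ne ha) (G.range_gY hP h).ge fun M => (h.lv M).j_inc _

theorem loc_im : haveI := fun M => (h.lv M).nice
    IsLoc (chiA a) (fun M => (h.lv M).β) G.im τ.I := G.loc' hP h

theorem ev_im (t : TG P a) (n : ν) (M : ℕ) (z : τ.A × Bs σ M) :
    h.evM M (.inl n) (G.im M z) = t.i M (pr (τ.ev n) M z) :=
  DFunLike.congr_fun (G.ev1 t (D3c.gz_EM hP M) n fun _ a => vl_mem a.1 _) z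

omit hP in
theorem psi_mem (n : ν) : τ.ψ n ∈ G.Gl h :=
  let ⟨x, b, c⟩ := G.psi n
  ⟨_, h.psi_tws (.inl n), inH _ x, c, by rw [← b, inF_bc]⟩

theorem ev_mem (t : TG P a) (n : ν) {y} (hy : y ∈ Mo.Gl t.k t.i (chiA a)) :
    pbE (τ.ev n) y ∈ G.Gl h := Gl_comap hy (TT.ev_km h t n) (G.ev_im hP h t n)

theorem conn_mem : τ.id (fun m => m.Conn) ∈ G.Gl h := by
  haveI := fun M => (h.lv M).nice
  have c (M) : IsClopen ((P.EM M).sel (fun m => m.Conn) : Set (P.YM ν k D g d M)) :=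
    Fam.isClopen_sel_of_same (F := P.EM M) hP.bigD_fam fun _ _ => AM.Same.conn
  refine ⟨fun M => hcls (fn (indicator ((P.EM M).sel fun m => m.Conn) 1)),
    Tws.of (n := 0) (fun M => ?_) fun M => hcls_isDeg (isDeg_fn _), _, fun M => ?_, by
      rw [← inF_bc, τ.bc_ind]⟩
  · refine (TopP.map_fn' _ (TopP.lc_ind (c _))).trans (congrArg (fun u => hcls (fn u))
      (funext fun z => indicator_eq_indicator ?_ rfl))
    obtain ⟨x, hx, p, rfl⟩ := (h.lv M).cl_surj z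
    obtain ⟨m, r⟩ := (Fam.chart_lat (F := P.E) hP.bigD).exists_rep_sol hx.1
    have u (M) (p : PM σ M) : (h.lv M).cl x hx p ∈ (P.EM M).sel (fun m => m.Conn) ↔ m.Conn :=
      Fam.mem_sel (F := P.EM M) (P := fun m => m.Conn) (m := par (uncurry p.val) m)
        (fun _ _ b => b.same.conn) (rep_μA.2 r)
    exact (iff_of_eq (congrArg (· ∈ _) ((h.lv M).inc_cl _ x hx p))).trans
      ((u _ _).trans (u _ _).symm)
  · have e := G.map_ind (M := M) hP (fun _ _ => AM.Same.conn) (fun _ _ => AM.Same.conn)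
      fun _ _ => Iff.rfl
    haveI := G.nice M
    rwa [ind_eq_fn] at e

/-- **the Gysin map of an evaluation map preserves the lattice** -/
theorem lat (ha : LinearIndependent ℚ a) (t : TG P a) [∀ M, CompactSpace (P.XE M)]
    {bt : ∀ M, C(P.XE M, Bs σ M)}
    (hb : ∀ M (p : PM σ M) y e, bt M (Quo.mk _ ⟨(uncurry p.val, y), e⟩) = bp p)
    (S : haveI := t.nice; LG.Sy (chiA a) t.k t.i bt) {e : ℤ}
    (hβ : haveI := t.nice; IsB t.k bt (2 * e) fun M => Tq.fnd (P.EM M).actT (P.EM M).cone)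
    (ho : ∀ M : ℕ, Ori (2 * e + 2 * (Fintype.card σ * M)) (Tq.fnd (P.EM M).actT (P.EM M).cone))
    (n : ν) {w} (hw : w ∈ G.Gl h) : ∃ c ∈ Mo.Gl t.k t.i (chiA a),
      ∀ y, τ.I (inF _ (pbE (τ.ev n) y * w)) = t.I (inF _ (c * y)) :=
  haveI := fun M => (h.lv M).nice
  haveI := fun M => (h.lv M).compactSpace
  haveI := t.nice
  haveI := t.niceX
  haveI := t.cptX
  Mo.transfer S (G.sy hP h ha) (TT.mpB h t hb n) (G.ev_im hP h t n) hβ ho t.loc (TT.isB h)
    (G.loc_im hP h) hw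

end Geo

theorem Md.ins_opt {ι : Type} [Fintype ι] (τ : Md P (Option ι) g d) (y : F ⊗[ℂ] Hev P.X)
    (x : ι → ℕ × F ⊗[ℂ] Hev P.X) :
    τ.id (fun m => m.Conn ∧ Com P.E.toWt P.wt m (∅ : Finset (Option ι))) *
      ∏ a, τ.ψ a ^ (a.elim (0, y) x).1 * pbE (τ.ev a) (a.elim (0, y) x).2 =
    pbE (τ.ev none) y * (τ.id (fun m => m.Conn) *
      ∏ i, τ.ψ (some i) ^ (x i).1 * pbE (τ.ev (some i)) (x i).2) := by
  rw [Fintype.prod_option, mul_left_comm]
  simp only [Option.elim, pow_zero, one_mul, Finset.coe_empty, Com, mem_empty_iff_false,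
    false_imp_iff, implies_true, and_true]

variable {T : Th P} (G : GeoT k D a T) (hP : P.Ok K₀ k D)
include G hP

/-- **the contributions vanish on odd classes** -/
theorem GeoT.hEv : HEv T := fun ν _ g d x =>
  let ⟨_, h⟩ := hP.exists_as ν g d
  haveI := fun M => (h.lv M).nice
  haveI := fun M => (h.lv M).compactSpace
  even_of ((G ν g d).loc_im hP h) (fun M => ⟨_, (congrArg (BM.IsDeg · _)
    (mul_add (2 : ℤ) _ _)).mpr ((TT.isB h).deg M)⟩) x

/-- **the correlators preserve the lattice** -/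
theorem GeoT.lat (ha : LinearIndependent ℚ a) (t : TG P a) [∀ M, CompactSpace (P.XE M)]
    {bt : ∀ M, C(P.XE M, Bs σ M)}
    (hb : ∀ M (p : PM σ M) y e, bt M (Quo.mk _ ⟨(uncurry p.val, y), e⟩) = bp p)
    (S : haveI := t.nice; LG.Sy (chiA a) t.k t.i bt) {e : ℤ}
    (hβ : haveI := t.nice; IsB t.k bt (2 * e) fun M => Tq.fnd (P.EM M).actT (P.EM M).cone)
    (ho : ∀ M : ℕ, Ori (2 * e + 2 * (Fintype.card σ * M)) (Tq.fnd (P.EM M).actT (P.EM M).cone))
    (Q : P287Q.Lz.Pk F (F ⊗[ℂ] Hev P.X) R) (hη : ∀ x, Q.η x = t.I (inF _ x))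
    (hC : ∀ (ν : Type) [Fintype ν] [DecidableEq ν] (d : R →₀ ℕ) (S : Finset ν)
      (x : ν → ℕ × F ⊗[ℂ] Hev P.X), Q.C d (S.val.map x) (Sᶜ.val.map x) =
        (T ν 0 fun r => d r).I (inF _ ((T ν 0 fun r => d r).id
          (fun m => m.Conn ∧ Com P.E.toWt P.wt m S) *
          ∏ a, (T ν 0 fun r => d r).ψ a ^ (x a).1 * pbE ((T ν 0 fun r => d r).ev a) (x a).2))) :
    Q.Lat (Mo.Gl t.k t.i (chiA a)).toSubring.toAddSubgroup := fun d s hs => by
  obtain ⟨l, rfl⟩ := Quot.exists_rep s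
  obtain ⟨_, h⟩ := hP.exists_as (Option (Fin l.length)) 0 fun r => d r
  have G' := G (Option (Fin l.length)) 0 fun r => d r
  obtain ⟨c, c1, c2⟩ := G'.lat hP h ha t hb S hβ ho none (mul_mem (G'.conn_mem hP h)
    (prod_mem (t := Finset.univ) fun (i : Fin l.length) _ => mul_mem
      (pow_mem (G'.psi_mem h (some i)) (l.get i).1)
      (G'.ev_mem hP h t (some i) (hs _ (l.get_mem i)))))
  refine ⟨c, c1, fun y => ?_⟩
  have := hC _ d ∅ fun o : Option (Fin l.length) => o.elim (0, y) l.get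
  rw [Md.ins_opt, c2, map_opt] at this
  exact this.trans (hη _).symm

end Vale.Agent.P269.Lz
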