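import Vale.Agent.P287Q.Lam.TrK
import Vale.Agent.P287Q.Lz.Fam
import Vale.Agent.P287Q.G.Prj.TgtM
import Vale.Agent.P287Q.G.Bas.RelC

/-! The target as a torus chart. -/

set_option linter.unusedSectionVars false
set_option linter.style.haveILetI false

namespace Vale.Agent.P269.Lz

open Set Function Topology TensorProduct Vale.Agent.P291Z Vale.Agent.P269.Ch
  Vale.Agent.P269.Orb Vale.Agent.P269.Loc LG

variable {R J K σ : Type} [Fintype R] [Fintype J] [Fintype K] [Fintype σ]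

variable (σ R) in
/-- the algebra of the group with the torus -/
noncomputable def uT : (((Empty → ℂ) × (R → ℂ)) × (σ → ℂ)) ≃ₐ[ℂ] (σ → ℂ) × (R → ℂ) where
  toFun a := (a.2, a.1.2)
  invFun b := ((1, b.2), b.1)
  left_inv _ := Prod.ext (Prod.ext (Subsingleton.elim _ _) rfl) rfl
  right_inv _ := rfl
  map_mul' _ _ := rfl
  map_add' _ _ := rfl
  commutes' _ := rfl

variable (σ J) in
/-- the coordinates of the Borel construction -/
noncomputable def μT (M : ℕ) : (((Empty → ℂ) × (J → ℂ)) × (σ → Fin (M + 1) → ℂ)) ≃L[ℂ]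
    (σ × Fin (M + 1) → ℂ) × (J → ℂ) :=
  LinearEquiv.toContinuousLinearEquiv
    { toFun := fun x => (uncurry x.2, x.1.2)
      invFun := fun y => ((0, y.2), curry y.1)
      left_inv := fun _ => Prod.ext (Prod.ext (Subsingleton.elim _ _) rfl) rfl
      right_inv := fun _ => rfl
      map_add' := fun _ _ => rfl
      map_smul' := fun _ _ => rfl }

variable [DecidableEq R] [DecidableEq σ] {P : TT R J K σ} {K₀ : RD R} {k D : ℕ}

namespace TT.Ok

variable (h : P.Ok K₀ k D)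

section
include h

theorem niceE : P.E.Nice 0 := h.abs_fam.nice h.good h.reg sm_E

theorem niceEM (M : ℕ) : (P.EM M).Nice 0 := h.abs_fam.nice (h.good_EM M) h.reg_fam (sm_EM M)

theorem niceXE (M : ℕ) : Nice ((P.EM M).X (P.EM M).cone) := (h.good_EM M).nice

end

/-- the dimension of the target -/
noncomputable def dim : ℕ := h.niceE.exists_dim.choose

theorem dim_E : Tq.Dim P.E.actT P.E.cone h.dim := h.niceE.exists_dim.choose_spec

/-- the target as a torus chart -/
noncomputable def tc : TC σ P.E.actT P.ET.actT (kd0 _ _) P.E.cone :=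
  haveI := h.good.fp
  tc0 (uT R σ) inferInstance P.ET.lin_actT (fun _ _ x => Prod.ext (Subsingleton.elim _ _)
      (funext fun j => congrArg (· * _ * x.2 j) ((Fintype.prod_empty _).trans
        (Finset.prod_eq_one fun _ _ => one_zpow _).symm)))
    (fun _ ha _ hx => mem_E (l := _) (h.invT.cone_act ha (mem_fam hx trivial))) h.dim_E
    (h.good.compact cp_E)

/-- the approximations of the Borel construction -/
noncomputable def lv (M : ℕ) : h.tc.Lv M (P.EM M).actT (P.EM M).cone where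
  μ := μT J σ M
  isAct := inferInstance
  eqv b _ _ _ := Prod.ext (funext (actL_EM b.1 _)) rfl
  mem x _ := cone_iff.trans (and_comm.trans (and_congr
    (by rw [show x = (Empty.elim, x.2) from Prod.ext (Subsingleton.elim _ _) rfl]; rfl)
    (forall_congr' fun _ => ne_iff.symm)))

theorem FZ_eq : h.tc.FZ = P.Fix := Set.ext fun x => and_congr_right fun hx => by
  rw [fixed_iff h.free hx]
  have e (s : σ → ℂ) (j) : (P.ET.actT (s, 1) x).2 j = Lz.tc P.wt s j * x.2 j := by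
    simp only [Wt.actT, Pi.one_apply, one_zpow, Finset.prod_const_one, mul_one, Lz.tc]
  refine ⟨fun a s hs => ?_, fun a s hs => ?_⟩
  · obtain ⟨t, b, c⟩ := a (fun i => Units.mk0 (s i)
      (norm_ne_zero_iff.1 ((hs i).trans_ne one_ne_zero))) hs
    exact ⟨t.2, (isUnit_T.1 b).2, fun j => (e s j).symm.trans
      ((congrFun (congrArg Prod.snd c) j).trans (actT_snd t.2 t.1 x j))⟩
  · obtain ⟨t, b, c⟩ := a _ hs
    exact ⟨(1, t), isUnit_T.2 ⟨nofun, b⟩, Prod.ext (Subsingleton.elim _ _) (funext fun j =>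
      (e _ j).trans ((c j).trans (actT_snd t 1 x j).symm))⟩

/-- the identification of the fixed loci -/
noncomputable def φ : P.X ≃ₜ h.tc.F :=
  (Tq.Eqv.incl (act := P.E.actT) h.FZ_eq.ge).homeo (.incl h.FZ_eq.le)
    (fun _ _ => ⟨1, isUnit_one, (Wt.actT_one _ _).symm⟩)
    fun _ _ => ⟨1, isUnit_one, (Wt.actT_one _ _).symm⟩

theorem i_φ (M : ℕ) (z : P.Fix) (p : PM σ M) : (h.lv M).i (h.φ (Quo.mk _ z), bp p) =
    Quo.mk _ ⟨(uncurry p.val, z.1.2), (h.lv M).mem_pm z.2.1 p⟩ :=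
  (h.lv M).i_cl _ (h.FZ_eq.ge z.2) p

theorem b_mk {M : ℕ} (p : PM σ M) (y a) :
    (h.lv M).b (Quo.mk _ ⟨(uncurry p.val, y), a⟩) = bp p :=
  (h.lv M).b_cl (Empty.elim, y) (cone_iff.1 a).2 p

theorem inc_mk {M : ℕ} (p : PM σ M) (y a) : ∃ b, (h.lv M).inc (h.lv (M + 1))
    (Quo.mk _ ⟨(uncurry p.val, y), a⟩) = Quo.mk _ ⟨(uncurry p.inc.val, y), b⟩ :=
  ⟨_, (h.lv M).inc_cl _ (Empty.elim, y) (cone_iff.1 a).2 p⟩

include h in
theorem mk_surj {M : ℕ} (z : (P.EM M).X (P.EM M).cone) :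
    ∃ (p : PM σ M), ∃ y a, Quo.mk _ ⟨(uncurry p.val, y), a⟩ = z :=
  let ⟨x, _, p, e⟩ := (h.lv M).cl_surj z
  ⟨p, x.2, _, e⟩

include h in
theorem compact_EM (M : ℕ) : CompactSpace ((P.EM M).X (P.EM M).cone) := (h.lv M).compactSpace

theorem dim_EM (M : ℕ) : Tq.Dim (P.EM M).actT (P.EM M).cone (h.dim + Fintype.card σ * M) :=
  (h.lv M).dim rfl

theorem β_eq (M : ℕ) : (h.lv M).β = Tq.fnd (P.EM M).actT (P.EM M).cone :=
  haveI := (h.good_EM M).fp
  (h.lv M).β_fnd rfl rfl

theorem β₀_eq : h.tc.β₀ = Tq.fnd P.E.actT P.E.cone :=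
  haveI := h.good.fp
  TC.β₀_fnd rfl rfl

theorem ori (M : ℕ) : Ori (2 * h.dim + 2 * (Fintype.card σ * M))
    (Tq.fnd (P.EM M).actT (P.EM M).cone) := by
  haveI := (h.good_EM M).fp
  have := (h.dim_EM M).ori
  rwa [Nat.cast_add, Nat.cast_mul, mul_add] at this

theorem isB : haveI := h.niceXE
    IsB (fun M => (h.lv M).inc (h.lv (M + 1))) (fun M => (h.lv M).b) (2 * h.dim)
      fun M => Tq.fnd (P.EM M).actT (P.EM M).cone := by
  haveI := h.niceXE
  have := TC.isB h.lv
  rw [funext h.β_eq] at this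
  exact (congrArg (IsB _ _ · _) (congrArg (2 * ·) (sub_zero _))).mp this

end TT.Ok

end Vale.Agent.P269.Lz
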