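import Vale.Agent.P287Q.Lam.TyT
import Vale.Agent.P287Q.Lam.Fx
import Vale.Agent.P287Q.Hb.All
import Vale.Agent.P287Q.Hb.L11
import Vale.Agent.P287Q.Lz.Dg3
import Vale.Agent.P287Q.Lz.DgB

/-!
# Hodge types on the fixed locus of the target and on the Borel construction
-/

set_option linter.unusedSectionVars false
set_option linter.style.haveILetI false

namespace Vale.Agent.P269.Lz

open Set Function Topology Filter TensorProduct B Vale.Agent.P291Z Vale.Agent.P269.Ch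
  Vale.Agent.P269.Loc LG Tq Mono Holo P287Q.Hb P287Q.Lam

variable {R J K σ : Type} [Fintype R] [Fintype J] [Fintype K] [Fintype σ] [DecidableEq R]
  [DecidableEq σ] {P : TT R J K σ} {K₀ : RD R} {k D : ℕ} {a : σ → ℂ}

namespace TT

/-- the types on the fixed locus -/
noncomputable abbrev TyF (P : TT R J K σ) : ℤ → ℤ → Submodule ℂ (H P.X) := QT P.E.actT P.Fix

/-- the types on the Borel construction -/
noncomputable abbrev TyE (P : TT R J K σ) (M : ℕ) : ℤ → ℤ → Submodule ℂ (H (P.XE M)) :=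
  QT (P.EM M).actT (P.EM M).cone

/-- the Borel construction of the fixed locus -/
def FxM (P : TT R J K σ) (M : ℕ) : Set ((σ × Fin (M + 1) → ℂ) × (J → ℂ)) :=
  {z | z.1 ∈ PMs σ M ∧ (Empty.elim, z.2) ∈ P.Fix}

theorem FM_sub (M : ℕ) : P.FxM M ⊆ (P.EM M).cone := fun _ h => cone_iff.2 ⟨h.1, h.2.1⟩

theorem hB_EM (M : ℕ) : ∀ l ∈ (P.EM M).B, ∀ s, ∃ b, (P.EM M).wl b = Pi.single s 1 ∧ l b ≠ 0 :=
  fun _ h s => let ⟨c, e⟩ := h s; ⟨(s, c), rfl, e⟩

theorem eqv_FM (M : ℕ) : Eqv (P.EM M).actT P.E.actT (P.FxM M) P.Fix fun z => (Empty.elim, z.2) := by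
  refine ⟨fun _ h => h.2, cont.continuousOn, fun t ht z hz => ?_⟩
  obtain ⟨ρ, hρ⟩ := hz.2.2
  obtain ⟨t1, t2⟩ := isUnit_T.1 ht
  refine ⟨(1, fun r => (∏ i, t.1 i ^ ρ i r) * t.2 r), isUnit_T.2 ⟨fun i => i.elim,
    fun r => mul_ne_zero (prod_zpow_ne t1 _) (t2 r)⟩, Prod.ext (Subsingleton.elim _ _)
      (funext fun j => Eq.trans ?_ (actT_snd _ _ _ j).symm)⟩
  change tc P.wt t.1 j * _ * _ = _
  rw [mul_right_comm, hρ.tc_mul t1, mul_right_comm, ← Finset.prod_mul_distrib]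
  simp only [mul_zpow]

namespace Ok

variable (h : P.Ok K₀ k D)
include h

theorem mfd_ovP {z} (hz : z ∈ P.E.cone) {ρ} (e : OvP P.E.toWt P.wt z.2 ρ) :
    ∃ n, MfdAt {x | x ∈ P.E.cone ∧ OvP P.E.toWt P.wt x.2 ρ} n z := by
  obtain ⟨n, hn⟩ := (D3c.nice_E h).exists_dim
  refine mfd_diag (nw P.E.toWt P.wt ρ) (fun s hs x hx => ?_) (hn z hz) e
  refine mem_of_eq_of_mem (congrArg (Prod.mk x.1) (funext fun j => ?_)) (mem_E (h.invT.cone_act
    (t := (s, fun r => ∏ i, s i ^ (-ρ) i r)) (isUnit_T.2 ⟨hs, fun r => prod_zpow_ne hs _⟩)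
    (mem_fam (l := x.1) hx trivial)))
  change _ = (∏ i, s i ^ P.wt j i) * (∏ r, (∏ i, s i ^ (-ρ) i r) ^ P.w j r) * x.2 j
  rw [FxA.prod_zpow_zpow hs fun r i => (-ρ) i r, ← Finset.prod_mul_distrib]
  refine congrArg (· * _) (Finset.prod_congr rfl fun i _ => ?_)
  rw [← zpow_add₀ (hs i)]
  simp [nw, sub_eq_add_neg, mul_comm]

theorem ev_ovP {z} (hz : z ∈ P.E.cone) {ρ} (e : OvP P.E.toWt P.wt z.2 ρ) :
    ∀ᶠ x in 𝓝 z, x ∈ P.Fix → OvP P.E.toWt P.wt x.2 ρ := by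
  filter_upwards [(eventually_all_finite (finite_lbl h.free P.wt)).2 fun ρ' _ =>
    show ∀ᶠ x : (Empty → ℂ) × (J → ℂ) in 𝓝 z, ρ' ≠ ρ → ¬OvP P.E.toWt P.wt x.2 ρ' by
      by_cases b : ρ' = ρ
      · exact .of_forall fun _ c => absurd b c
      · exact mem_of_superset ((isClosed_ovP ρ').isOpen_compl.mem_nhds
          fun c => b (OvP.unique h.free hz c e)) fun _ c _ => c] with x hx ⟨b, ρ', c⟩
  exact (not_not.1 fun d => hx ρ' ⟨x, b, c⟩ d c : ρ' = ρ) ▸ c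

/-- **The fixed locus is a manifold.** -/
theorem mfd_fix : ∀ z ∈ P.Fix, ∃ n, MfdAt P.Fix n z := fun _ ⟨hz, ρ, e⟩ =>
  (h.mfd_ovP hz e).imp fun _ b => b.congr ((h.ev_ovP hz e).mono fun _ c =>
    ⟨fun d => ⟨d.1, ρ, d.2⟩, fun d => ⟨d.1, c d⟩⟩)

theorem prj_fix : Prj P.E.actT P.Fix :=
  haveI := h.compact_X
  fam_prj h.good fix_sub h.fix_act fun _ _ s => s.elim

theorem bg_fix : BG P.TyF :=
  haveI := h.fp_fix
  haveI := h.compact_X
  bg_of_mfd (fun _ _ => hg_of) P.E.lin_actT h.mfd_fix h.prj_fix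

theorem qm_EM (M : ℕ) : ∃ n, QM (P.EM M).actT (P.EM M).cone n :=
  haveI := (h.good_EM M).fp
  haveI := (h.good_EM M).compact (D3c.cp_EM M)
  (D3c.nice_EM h M).exists_dim.elim fun _ a => ⟨_, .of_dim (P.EM M).lin_actT a⟩

theorem prj_EM (M : ℕ) : Prj (P.EM M).actT (P.EM M).cone :=
  haveI := (h.good_EM M).compact (D3c.cp_EM M)
  fam_prj (h.good_EM M) Subset.rfl (fun _ a _ => (h.good_EM M).cone_act a) (hB_EM M)

theorem bg_EM (M : ℕ) : BG (P.TyE M) :=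
  let ⟨_, q⟩ := h.qm_EM M
  bg_of_hg (hg_of q (h.prj_EM M))

theorem FM_act (M : ℕ) (t) (ht : IsUnit t) (z) (hz : z ∈ P.FxM M) : (P.EM M).actT t z ∈ P.FxM M :=
  have b := cone_iff.1 ((h.good_EM M).cone_act ht (FM_sub M hz))
  ⟨b.1, b.2, hz.2.2.imp fun _ a => ovP_act a _⟩

theorem FM_eq (M : ℕ) : ∃ C, IsClosed C ∧ P.FxM M = (P.EM M).cone ∩ C :=
  let ⟨_, a, b⟩ := h.fix_eq
  ⟨_, a.preimage cont, Set.ext fun _ => ((and_congr_right' (Set.ext_iff.1 b _)).trans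
    and_assoc.symm).trans (and_congr_left' cone_iff.symm)⟩

theorem fp_FM (M : ℕ) : FP (P.EM M).actT (P.FxM M) :=
  let ⟨_, a, b⟩ := h.FM_eq M
  (h.good_EM M).fp_of (FM_sub M) (h.FM_act M) (b ▸ (h.good_EM M).lc_cone.inter a.isLocallyClosed)

theorem compact_FM (M : ℕ) : CompactSpace ((P.EM M).X (P.FxM M)) :=
  let ⟨_, a, b⟩ := h.FM_eq M
  (h.good_EM M).compact_of (D3c.cp_EM M) b a (h.FM_act M)

theorem mfd_FM (M : ℕ) : ∀ z ∈ P.FxM M, ∃ n, MfdAt (P.FxM M) n z := fun _ hz =>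
  let ⟨_, b⟩ := h.mfd_fix _ hz.2
  ⟨_, (MfdAt.prod (dim_PMs (W := (P.EM M).toWt) actL_EM _ hz.1) b).iso
    (F := fun x => (x.1, x.2.2)) (G := fun x => (x.1, Empty.elim, x.2))
    (analyticAt_fst.prod (analyticAt_snd.comp analyticAt_snd))
    (analyticAt_fst.prod (analyticAt_const.prod analyticAt_snd))
    (.of_forall fun x c =>
      have e : ((Empty.elim, x.2.2) : (Empty → ℂ) × (J → ℂ)) = x.2 :=
        Prod.ext (Subsingleton.elim _ _) rfl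
      ⟨⟨c.1, mem_of_eq_of_mem e c.2⟩, Prod.ext rfl e⟩) (.of_forall fun _ c => ⟨c, rfl⟩)⟩

theorem bg_FM (M : ℕ) : BG (QT (P.EM M).actT (P.FxM M)) :=
  haveI := h.fp_FM M
  haveI := h.compact_FM M
  bg_of_mfd (fun _ _ => hg_of) (P.EM M).lin_actT (h.mfd_FM M)
    (fam_prj (h.good_EM M) (FM_sub M) (h.FM_act M) (hB_EM M))

omit h in
theorem lam_mem (M : ℕ) (s : σ) :
    lcq (P.EM M).actL (PMs σ M) (fun τ => τ s) ∈ QT (P.EM M).actL (PMs σ M) 1 1 :=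
  haveI := fp_PMs (W := (P.EM M).toWt) actL_EM
  haveI : CompactSpace (Quo (P.EM M).actL (PMs σ M)) := D3c.cp_EM M
  Gen.lcq_mem (φ := fun l c => l (s, c))
    ⟨⟨rfl, fun _ _ _ _ => rfl, fun _ _ => (continuous_apply s).continuousAt⟩,
      fun _ _ => analyticAt_pi_iff.2 fun c => analyticAt_pi_iff.1 analyticAt_id (s, c),
      fun _ b => ne_iff.2 (b s), fun τ _ l _ => funext fun c => actL_EM τ l (s, c)⟩
    (.of_dim (P.EM M).lin_actL (dim_PMs actL_EM))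

end Ok

end TT

variable (t : TG P a) (h : P.Ok K₀ k D)

theorem TG.k_eq1 (M : ℕ) : t.k M = (P.k1 M).q := ContinuousMap.ext (mk_surj.forall.2
  fun ⟨⟨_, y⟩, b⟩ => by
    obtain ⟨p, rfl⟩ := exists_pm b.1
    exact (t.k_mk M p y b).2)

theorem TG.k_i (M : ℕ) (z) : t.k M (t.i M z) = t.i (M + 1) (incA P.X M z) := by
  haveI := t.niceX
  haveI := t.cptX
  obtain ⟨z, b⟩ := z
  obtain ⟨z, rfl⟩ := mk_surj z
  obtain ⟨p, rfl⟩ := isOpenQuotientMap_bp.surjective b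
  obtain ⟨a1, a2⟩ := t.i_mk M z p
  rw [a2, incA_bp, (t.k_mk M p _ a1).2, (t.i_mk _ z p.inc).2]

include h

/-- **The restriction to the fixed locus respects the weights.** -/
theorem TG.tw : haveI := t.niceX; haveI := t.cptX; TW t.k t.i P.TyE P.TyF := by
  haveI := t.niceX
  haveI := t.cptX
  refine ⟨h.bg_EM, h.bg_fix, fun M p q c hc => ?_, t.k_i, fun M n c x e => ?_⟩
  · obtain ⟨_, b⟩ := h.qm_EM M
    exact t.k_eq1 M ▸ P287Q.Mf.map_mem_QT b (P.k1 M) hc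
  haveI := fp_PMs (W := (P.EM M).toWt) (TT.actL_EM (M := M))
  haveI := h.compact_FM M
  haveI := (h.good_EM M).fp
  obtain ⟨eB, e1, e2, e3, -⟩ := exists_eB (W := (P.EM M).toWt) TT.actL_EM
  let f := (TT.eqv_FM (P := P) M).qm
  let g₀ := ((P.EM M).eqh_fst.toEqv.mono (TT.FM_sub M) (Z' := PMs σ M) fun _ b => b.1).qm
  let g : C(_, Bs σ M) := ContinuousMap.comp ⟨_, (e1.homeomorph eB).symm.continuous⟩ g₀
  have g1 : ∀ z, eB (g z) = g₀ z := fun z => (e1.homeomorph eB).apply_symm_apply _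
  have g2 : ∀ (p : PM σ M) y b, g (Quo.mk _ ⟨(uncurry p.val, y), b⟩) = bp p := fun p y b =>
    e1.injective ((g1 _).trans (e2 p).symm)
  have i1 : (t.i M).comp (f.prodMk g) = qinc _ (TT.FM_sub M) := ContinuousMap.ext (mk_surj.forall.2
    fun ⟨⟨_, y⟩, b⟩ => by
      obtain ⟨p, rfl⟩ := exists_pm b.1
      exact (congrArg (fun u => t.i M (_, u)) (g2 p y b)).trans (t.i_mk M ⟨_, b.2⟩ p).2)
  have hb : Bijective (f.prodMk g) := by
    obtain ⟨_, q⟩ := h.qm_EM M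
    refine ⟨.of_comp (f := t.i M) (mem_of_eq_of_mem (s := {u | Injective u})
      (congrArg DFunLike.coe i1) (q.qinc_injective _)), fun ⟨z, b⟩ => ?_⟩
    obtain ⟨⟨⟨l, y⟩, hz⟩, rfl⟩ := mk_surj z
    obtain ⟨p, rfl⟩ := isOpenQuotientMap_bp.surjective b
    obtain rfl : l = Empty.elim := Subsingleton.elim _ _
    exact ⟨Quo.mk _ ⟨(uncurry p.val, y), mem_PMs p, hz⟩, Prod.ext rfl (g2 p y _)⟩
  refine (H.map_bijective_of_homeomorph ((isHomeomorph_iff_continuous_bijective.2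
    ⟨(f.prodMk g).continuous, hb⟩).homeomorph _)).1 ?_
  change H.map (f.prodMk g) _ = H.map (f.prodMk g) _
  rw [wp_evA h.bg_fix (h.bg_FM M) (map_HT (π' := Quo.mk _) (h.mfd_FM M) fun x => ⟨fun z => (Empty.elim, z.2),
    analyticAt_const.prod analyticAt_snd, .of_forall fun y => ⟨y.2.2, rfl⟩⟩) fun s => ?_, ← e,
    H.map_map, H.map_map, i1]
  · exact (h.bg_EM M).map_wp (h.bg_FM M) (map_HT (π' := Quo.mk _) (h.mfd_FM M) fun x => ⟨id, analyticAt_id,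
      .of_forall fun y => ⟨TT.FM_sub M y.2, rfl⟩⟩) n c
  · rw [← e3, H.map_map, show eB.comp g = g₀ from ContinuousMap.ext g1]
    exact map_HT (π' := Quo.mk (P.EM M).actL) (h.mfd_FM M) (fun x => ⟨Prod.fst, analyticAt_fst,
      .of_forall fun y => ⟨y.2.1, rfl⟩⟩) _ _ _ (TT.Ok.lam_mem M s)

variable (full : ∀ x : F ⊗[ℂ] Hev P.X, inF _ x ∈ Submodule.span F t.Gl) (n : ℤ)
include full

/-- **The classes of weight `n` are spanned by restrictions of classes of pure type.** -/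
theorem TG.ty_pure : TyK F P.TyF n = Submodule.span F {x | ∃ α p q, p - q = n ∧
    Lf t.k t.i (chiA a) α (inF _ x) ∧ ∀ M, α M ∈ P.TyE M p q} :=
  haveI := t.niceX
  haveI := t.cptX
  haveI := t.nice
  haveI := fun M => (h.good_EM M).compact (D3c.cp_EM M)
  (t.tw h).TyK_eq full n

theorem TG.ty_span : TyK F P.TyF n = Submodule.span F {x | ∃ α,
    Lf t.k t.i (chiA a) α (inF _ x) ∧ ∀ M, α M ∈ WT (P.TyE M) n} :=
  haveI := t.niceX
  haveI := t.cptX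
  haveI := t.nice
  haveI := fun M => (h.good_EM M).compact (D3c.cp_EM M)
  (t.tw h).TyK_eq' full n

end Vale.Agent.P269.Lz
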