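import Vale.Agent.P287Q.Lam.Mo

/-! The lattice of equivariant classes: integrality, rank, values at points. -/

set_option linter.unusedSectionVars false
set_option linter.style.haveILetI false
set_option maxSynthPendingDepth 3

namespace Vale.Agent.P269.Lz.Mo

open Set Function Topology Filter TensorProduct B Vale.Agent.P291Z Vale.Agent.P269.Ch
  Vale.Agent.P269.Orb Vale.Agent.P269.Loc LG

theorem exists_poly {σ : Type} (a : σ → ℂ) (Q : Loc.R σ) : ∃ q : Polynomial ℂ,
    chiA a Q = Polynomial.aeval tt q ∧ q.coeff 0 = MvPolynomial.constantCoeff Q := by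
  refine ⟨MvPolynomial.aeval (fun i => a i • Polynomial.X) Q, Eq.symm ?_, ?_⟩
  · exact AlgHom.congr_fun (MvPolynomial.algHom_ext (f := (Polynomial.aeval tt).comp
      (MvPolynomial.aeval fun i => a i • Polynomial.X)) (g := chiA a) fun i => by simp [chiA]) Q
  · exact RingHom.congr_fun (MvPolynomial.ringHom_ext (f := Polynomial.constantCoeff.comp
      (MvPolynomial.aeval fun i => a i • Polynomial.X : Loc.R σ →ₐ[ℂ] _).toRingHom)
      (g := MvPolynomial.constantCoeff) (by simp) (by simp)) Q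

variable {σ : Type} [Fintype σ] {X : ℕ → Type} [∀ M, TopologicalSpace (X M)] {A : Type}
  [TopologicalSpace A] {k : ∀ M, C(X M, X (M + 1))} {i : ∀ M, C(A × Bs σ M, X M)}
  {χ : Loc.R σ →ₐ[ℂ] F} {a : σ → ℂ} {b : ∀ M, C(X M, Bs σ M)}

/-- **the values at points are polynomials** -/
theorem ptE_mem {x} (h : x ∈ Gl k i (chiA a)) (p : A) :
    ∃ q : Polynomial ℂ, ptE p x = Polynomial.aeval tt q := by
  obtain ⟨_, -, z, -, e⟩ := h
  let l : H A →ₗ[ℂ] ℂ := (exists_pt.choose.comp (H.mapA (.const Unit p))).toLinearMap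
  have : ∀ x, ptE p x = intT F l (inF A x) := fun x => by
    induction x with
    | zero => simp only [map_zero]
    | add a b ha hb => simp only [map_add, ha, hb]
    | tmul c y => rw [ptE_tmul, inF_tmul, intT_tmul, Algebra.smul_def, mul_comm]; rfl
  rw [this, ← e, intT_bc]
  exact (exists_poly a _).imp fun _ u => u.1

variable [Nice A] [CompactSpace A] [∀ M, Nice (X M)] [∀ M, CompactSpace (X M)]

/-- **the integrals are polynomials** -/
theorem int (S : LG.Sy (chiA a) k i b) {d β I} (hβ : IsB k b d β) (hI : IsLoc (chiA a) β i I) {α y}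
    (h : Lf k i (chiA a) α y) : ∃ q : Polynomial ℂ,
      I y = Polynomial.aeval tt q ∧ q.coeff 0 = intg (β 0) (α 0) := by
  obtain ⟨c, x, e, rfl⟩ := h
  obtain ⟨Q, hQ⟩ := hβ.exists_rep S.toOvB c
  obtain ⟨q, u, v⟩ := exists_poly a Q
  exact ⟨q, (S.loc hI e hQ).symm.trans u, by rw [v, hQ.constantCoeff, map_one, mul_one]⟩

/-- **full rank** -/
theorem span_Gl (S : LG.Sy χ k i b) :
    Submodule.span F (Gl k i χ : Set (F ⊗[ℂ] Hev A)) = ⊤ := by
  obtain ⟨p, hp, e⟩ := S.full
  refine eq_top_iff.2 fun x _ => ?_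
  induction x with
  | zero => exact zero_mem _
  | add a b ha hb => exact add_mem (ha trivial) (hb trivial)
  | tmul c y =>
    obtain ⟨α, h1, h2⟩ := e (1 ⊗ₜ y.1)
    have : c ⊗ₜ[ℂ] y = (c * (χ p)⁻¹) • χ p ⊗ₜ[ℂ] y := by
      rw [smul_tmul', smul_eq_mul, inv_mul_cancel_right₀ hp]
    exact this ▸ Submodule.smul_mem _ _ (Submodule.subset_span (mem_Gl.2 ⟨α, h1, _, h2, by
      rw [Algebra.TensorProduct.tmul_mul_tmul, one_mul, mul_one, bc_tmul, inF_tmul]⟩))

end Vale.Agent.P269.Lz.Mo
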