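import Vale.Agent.P287Q.Lam.SyB
import Vale.Agent.P287Q.G.LG.Top

/-! The lattice of restrictions of equivariant classes. -/

set_option linter.unusedSectionVars false
set_option linter.style.haveILetI false

namespace Vale.Agent.P269.LG

open Set Function Topology TensorProduct B Vale.Agent.P291Z Vale.Agent.P269.Ch
  Vale.Agent.P269.Orb Vale.Agent.P269.Loc

variable {σ : Type} [Fintype σ] {χ : R σ →ₐ[ℂ] F} {A A' : Type} [TopologicalSpace A] [Nice A]
  [CompactSpace A] [TopologicalSpace A'] [Nice A'] [CompactSpace A'] {X X' : ℕ → Type}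
  [∀ M, TopologicalSpace (X M)] [∀ M, TopologicalSpace (X' M)]
  {k : ∀ M, C(X M, X (M + 1))} {b : ∀ M, C(X M, Bs σ M)} {i : ∀ M, C(A × Bs σ M, X M)}
  {k' : ∀ M, C(X' M, X' (M + 1))} {b' : ∀ M, C(X' M, Bs σ M)} {i' : ∀ M, C(A' × Bs σ M, X' M)}
  {f : ∀ M, C(X' M, X M)} {d d' : ℤ} {β : ∀ M, BM (X M)} {β' : ∀ M, BM (X' M)}
  {α : ∀ M, H (X M)} {I : F ⊗[ℂ] H A →ₗ[F] F} {I' : F ⊗[ℂ] H A' →ₗ[F] F}

variable (χ k i) in
/-- the restrictions of equivariant classes -/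
noncomputable def Gs : Subalgebra ℂ (F ⊗[ℂ] H A) where
  carrier := {y | ∃ α ∈ Tws k, ∃ x, (∀ M, H.map (i M) (α M) = evA A M x) ∧ bc _ χ x = y}
  mul_mem' := fun ⟨α, a, x, c, e⟩ ⟨α', a', x', c', e'⟩ => ⟨α * α', Tws.mul a a', x * x', fun M => by
    rw [map_mul, ← c, ← c', ← map_mul]; rfl, by rw [map_mul, e, e']⟩
  add_mem' := fun ⟨α, a, x, c, e⟩ ⟨α', a', x', c', e'⟩ => ⟨α + α', add_mem a a', x + x', fun M => by
    rw [map_add, ← c, ← c', ← map_add]; rfl, by rw [map_add, e, e']⟩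
  algebraMap_mem' z := ⟨z • 1, Submodule.smul_mem _ z Tws.one, algebraMap ℂ _ z, fun M => by
    rw [AlgHom.commutes, Pi.smul_apply, Pi.one_apply, H.map_smulC, map_one,
      Algebra.algebraMap_eq_smul_one], AlgHom.commutes _ z⟩

variable (χ k i) in
/-- the even restrictions of equivariant classes -/
noncomputable def Lm : Subalgebra ℂ (F ⊗[ℂ] Hev A) := (Gs χ k i).comap ((inF A).restrictScalars ℂ)

theorem mem_Lm {y : F ⊗[ℂ] Hev A} : y ∈ Lm χ k i ↔ inF A y ∈ Gs χ k i := Iff.rfl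

theorem Tws.par (h : α ∈ Tws k) : (fun M => (parH _).σ (α M)) ∈ Tws k := by
  induction h using Submodule.span_induction with
  | mem α h =>
    obtain ⟨n, hn⟩ := h.2
    simp only [fun M => parH_deg (hn M)]
    exact Submodule.smul_mem _ _ (Tws.of h.1 hn)
  | zero => simp only [Pi.zero_apply, map_zero]; exact zero_mem _
  | add x y _ _ hx hy => simp only [Pi.add_apply, map_add]; exact add_mem hx hy
  | smul c x _ hx => simp only [Pi.smul_apply, map_smul]; exact Submodule.smul_mem _ c hx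

theorem Gs.par {y : F ⊗[ℂ] H A} (h : y ∈ Gs χ k i) : ((parH A).bc F).σ y ∈ Gs χ k i := by
  obtain ⟨α, a, x, c, rfl⟩ := h
  refine ⟨_, Tws.par a, ((parH A).bc _).σ x, fun M => ?_, ?_⟩
  · rw [← parH_map, c]
    clear c
    induction x with
    | zero => simp only [map_zero]
    | add x y hx hy => simp only [map_add, hx, hy]
    | tmul g c => rw [Fock.Par.bc_σ, evA_tmul, evA_tmul, parH_mul,
        parH_ev (map_mem_Hev _ (lam_mem M g)), parH_map]
  · clear c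
    induction x with
    | zero => simp only [map_zero]
    | add x y hx hy => simp only [map_add, hx, hy]
    | tmul g c => rfl

theorem Gs.ev {y : F ⊗[ℂ] H A} (h : y ∈ Gs χ k i) :
    ∃ z ∈ Lm χ k i, inF A z = (2⁻¹ : F) • (y + ((parH A).bc F).σ y) := by
  obtain ⟨z, hz⟩ := add_par_mem y
  have e : inF A ((2⁻¹ : ℂ) • z) = (2⁻¹ : ℂ) • (y + ((parH A).bc F).σ y) :=
    (((inF A).restrictScalars ℂ).toLinearMap.map_smul _ z).trans (congrArg _ hz)
  refine ⟨(2⁻¹ : ℂ) • z, mem_Lm.2 (e ▸ Subalgebra.smul_mem _ (add_mem h (Gs.par h)) _), e.trans ?_⟩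
  rw [← algebraMap_smul F (2⁻¹ : ℂ), map_inv₀, map_ofNat]

variable [∀ M, Nice (X M)] [∀ M, Nice (X' M)] [∀ M, CompactSpace (X M)]
  [∀ M, CompactSpace (X' M)]

theorem Gs.comap {φ : C(A', A)} (e : ∀ M z, f M (i' M z) = i M (pr φ M z))
    (m : ∀ M x, f (M + 1) (k' M x) = k M (f M x)) {y : F ⊗[ℂ] H A} (h : y ∈ Gs χ k i) :
    pb F φ y ∈ Gs χ k' i' :=
  let ⟨_, a, x, c, u⟩ := h
  ⟨_, Tws.comap a m, pb _ φ x, Rst.comap c e, u ▸ bc_pb _ _ _⟩

theorem Lm.comap {φ : C(A', A)} (e : ∀ M z, f M (i' M z) = i M (pr φ M z))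
    (m : ∀ M x, f (M + 1) (k' M x) = k M (f M x)) {y : F ⊗[ℂ] Hev A} (h : y ∈ Lm χ k i) :
    pbE φ y ∈ Lm χ k' i' := mem_Lm.2 (pb_inF φ y ▸ Gs.comap e m h)

/-- the contribution is even -/
theorem IsLoc.even (h : IsLoc χ β i I) (hβ : ∀ M, ∃ m : ℤ, BM.IsDeg (2 * m) (β M))
    (x : F ⊗[ℂ] H A) : I (((parH A).bc F).σ x) = I x := by
  induction x with
  | zero => simp only [map_zero]
  | add x y hx hy => simp only [map_add, hx, hy]
  | tmul z c =>
    refine H.induction_deg (P := fun c => I (((parH A).bc F).σ (z ⊗ₜ c)) = I (z ⊗ₜ c)) c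
      (by simp) (fun a b ha hb => by simp only [tmul_add, map_add, ha, hb]) fun n => ?_
    rw [Fock.Par.bc_σ, parH_deg (H.isDeg_comp n c)]
    rcases Int.even_or_odd n with e | e
    · rw [e.neg_one_zpow, one_smul]
    · rw [h.odd hβ e (H.isDeg_comp n c), h.odd hβ e (Submodule.smul_mem (H.deg _ n) _
        (H.isDeg_comp n c))]

theorem IsB.ev (h : IsB k b (2 * d) β) (M : ℕ) : ∃ m : ℤ, BM.IsDeg (2 * m) (β M) :=
  ⟨_, mul_add 2 d _ ▸ h.deg M⟩

namespace Sy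

variable (S : Sy χ k i b)
include S

theorem mem_Gs (hα : α ∈ Tws k) : ∃ x, Rst i α x ∧ bc _ χ x ∈ Gs χ k i :=
  let ⟨x, h⟩ := S.exists_rs hα
  ⟨x, h, α, hα, x, h, rfl⟩

theorem chi_Gs (g : R σ) : χ g ⊗ₜ 1 ∈ Gs χ k i := ⟨_, S.eb_mem g, _, S.rs_eb g, rfl⟩

theorem chi_Lm (g : R σ) : χ g ⊗ₜ 1 ∈ Lm χ k i := S.chi_Gs g

theorem int_Gs (hβ : IsB k b d β) (hI : IsLoc χ β i I) {y : F ⊗[ℂ] H A} (h : y ∈ Gs χ k i) :
    ∃ Q, χ Q = I y :=
  let ⟨_, a, _, c, e⟩ := h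
  e ▸ S.int hβ hI a c

theorem span_Gs : Submodule.span F (Gs χ k i : Set (F ⊗[ℂ] H A)) = ⊤ := by
  obtain ⟨p, hp, h⟩ := S.full
  refine eq_top_iff.2 fun y hy => ?_
  clear hy
  induction y with
  | zero => exact zero_mem _
  | add x y hx hy => exact add_mem hx hy
  | tmul z c =>
    obtain ⟨α, a, e⟩ := h (1 ⊗ₜ c)
    have := Submodule.smul_mem _ (z / χ p) (Submodule.subset_span (R := F)
      (show _ ∈ (Gs χ k i : Set (F ⊗[ℂ] H A)) from ⟨α, a, _, e, rfl⟩))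
    rwa [Algebra.TensorProduct.tmul_mul_tmul, bc_tmul, one_mul, mul_one, smul_tmul', smul_eq_mul,
      div_mul_cancel₀ _ hp] at this

theorem span_Lm : Submodule.span F (Lm χ k i : Set (F ⊗[ℂ] Hev A)) = ⊤ := by
  refine eq_top_iff.2 fun y _ => ?_
  obtain ⟨z, a, e⟩ : ∃ z ∈ Submodule.span F (Lm χ k i : Set (F ⊗[ℂ] Hev A)),
      inF A z = (2⁻¹ : F) • (inF A y + ((parH A).bc F).σ (inF A y)) := by
    generalize inF A y = x
    induction S.span_Gs.ge (Submodule.mem_top (x := x)) using Submodule.span_induction with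
    | mem x h => exact (Gs.ev h).imp fun _ a => ⟨Submodule.subset_span a.1, a.2⟩
    | zero => exact ⟨0, zero_mem _, by simp⟩
    | add x y _ _ hx hy =>
      obtain ⟨u, a, e⟩ := hx
      obtain ⟨v, a', e'⟩ := hy
      exact ⟨u + v, add_mem a a', by rw [map_add, e, e', map_add, add_add_add_comm, ← smul_add]⟩
    | smul c x _ hx =>
      obtain ⟨u, a, e⟩ := hx
      exact ⟨c • u, Submodule.smul_mem _ c a, by
        rw [map_smul, e, map_smul, ← smul_add, smul_comm]⟩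
  rw [par_inF, half_add_self] at e
  exact inF_injective e ▸ a

/-- **transfer of the lattice** -/
theorem lat (S' : Sy χ k' i' b') (m : MpB k' b' k b f) {φ : C(A', A)}
    (e : ∀ M z, f M (i' M z) = i M (pr φ M z)) (hβ : IsB k b (2 * d) β)
    (ho : ∀ M : ℕ, Ori (2 * d + 2 * (Fintype.card σ * M)) (β M)) (hI : IsLoc χ β i I)
    (hβ' : IsB k' b' d' β') (hI' : IsLoc χ β' i' I') {x : F ⊗[ℂ] Hev A'} (hx : x ∈ Lm χ k' i') :
    ∃ c ∈ Lm χ k i, ∀ y, I' (inF A' (pbE φ y * x)) = I (inF A (c * y)) := by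
  obtain ⟨_, a, _, u, v⟩ := hx
  obtain ⟨c, h1, z, h2, h3⟩ := S.transfer S' m e hβ ho hI hβ' hI' a u
  obtain ⟨w, h4, h5⟩ := Gs.ev (χ := χ) ⟨c, h1, z, h2, rfl⟩
  refine ⟨w, h4, fun y => ?_⟩
  have := hI.even hβ.ev (inF A y * bc _ χ z)
  rw [par_mul, par_inF] at this
  rw [map_mul, ← pb_inF, show inF A' x = _ from v.symm, h3, mul_comm w, map_mul (inF A), h5, mul_smul_comm,
    mul_add, map_smul, map_add, this, ← map_add, ← map_smul, half_add_self]

end Sy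

end Vale.Agent.P269.LG
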