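import Vale.Agent.P269.LG.BorR
import Vale.Agent.P269.LG.KunB
import Vale.Agent.P269.LG.KunA

/-! Towers of spaces over the approximations of the classifying space of a torus. -/

set_option linter.unusedSectionVars false

namespace Vale.Agent.P269.LG

open Set Function Topology TensorProduct Vale.Agent.P291Z Vale.Agent.P269.Ch
  Vale.Agent.P269.Orb Vale.Agent.P269.Loc

variable {σ : Type} [Fintype σ] {K : Type} [Field K] [Algebra ℂ K] {χ : R σ →ₐ[ℂ] K}
  {A A' : Type} [TopologicalSpace A] [Nice A] [CompactSpace A] [TopologicalSpace A'] [Nice A']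
  [CompactSpace A'] {X X' : ℕ → Type} [∀ M, TopologicalSpace (X M)] [∀ M, Nice (X M)]
  [∀ M, CompactSpace (X M)] [∀ M, TopologicalSpace (X' M)] [∀ M, Nice (X' M)]
  [∀ M, CompactSpace (X' M)]

variable (σ) in
/-- the inclusion of the approximations of the classifying space -/
noncomputable abbrev incB (M : ℕ) : C(Bs σ M, Bs σ (M + 1)) := ((TS.triv σ pt).inc M).map

variable (σ) in
/-- the cocycle that cuts out the previous approximation -/
noncomputable abbrev colB (M : ℕ) : Coch (Bs σ (M + 1)) := ((TS.triv σ pt).isSec_col M).eul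

/-- polynomials in the equivariant parameters -/
noncomputable def eb (b : ∀ M, C(X M, Bs σ M)) (M : ℕ) : R σ →ₐ[ℂ] H (X M) :=
  (H.mapA (b M)).comp (lam M)

theorem eb_apply (b : ∀ M, C(X M, Bs σ M)) (M : ℕ) (f : R σ) :
    eb b M f = H.map (b M) (lam M f) := rfl

theorem eb_comm (b : ∀ M, C(X M, Bs σ M)) (M : ℕ) (f : R σ) (c : H (X M)) :
    c * eb b M f = eb b M f * c := (Hev.commute (map_mem_Hev _ (lam_mem M f)) c).symm

/-- a tower of spaces over the classifying space -/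
structure OvB (k : ∀ M, C(X M, X (M + 1))) (b : ∀ M, C(X M, Bs σ M)) : Prop where
  emb : ∀ M, IsClosedEmbedding (k M)
  sq : ∀ M x, b (M + 1) (k M x) = incB σ M (b M x)
  car : ∀ M, b (M + 1) ⁻¹' range (incB σ M) ⊆ range (k M)

/-- an equivariant Borel-Moore class of real degree `d` -/
structure IsB (k : ∀ M, C(X M, X (M + 1))) (b : ∀ M, C(X M, Bs σ M)) (d : ℤ) (β : ∀ M, BM (X M)) :
    Prop where
  step : ∀ M, gys (k M) (pull (b (M + 1)) (colB σ M)) (β (M + 1)) = β M
  deg : ∀ M : ℕ, BM.IsDeg (d + 2 * (Fintype.card σ * M)) (β M)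

/-- `x` is the restriction of `α` -/
def Rst (i : ∀ M, C(A × Bs σ M, X M)) (α : ∀ M, H (X M)) (x : R σ ⊗[ℂ] H A) : Prop :=
  ∀ M, H.map (i M) (α M) = evA A M x

variable (χ) in
/-- a tower with fixed locus `A` -/
structure Sy (k : ∀ M, C(X M, X (M + 1))) (i : ∀ M, C(A × Bs σ M, X M))
    (b : ∀ M, C(X M, Bs σ M)) : Prop extends OvB k b where
  b_i : ∀ M z, b M (i M z) = z.2
  k_i : ∀ M z, k M (i M z) = i (M + 1) (incA A M z)
  cut : ∃ p u, χ p ≠ 0 ∧ Lz i p u ∧ ∀ M, supp (δ (u M)) = ∅ ∧ supp (u M) ⊆ range (i M) ∧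
    hcls (u M) = eb b M p

/-- a map of towers -/
structure MpB (k' : ∀ M, C(X' M, X' (M + 1))) (b' : ∀ M, C(X' M, Bs σ M))
    (k : ∀ M, C(X M, X (M + 1))) (b : ∀ M, C(X M, Bs σ M)) (f : ∀ M, C(X' M, X M)) : Prop where
  k : ∀ M x, f (M + 1) (k' M x) = k M (f M x)
  b : ∀ M x, b M (f M x) = b' M x

variable {k : ∀ M, C(X M, X (M + 1))} {b : ∀ M, C(X M, Bs σ M)} {i : ∀ M, C(A × Bs σ M, X M)}
  {k' : ∀ M, C(X' M, X' (M + 1))} {b' : ∀ M, C(X' M, Bs σ M)} {i' : ∀ M, C(A' × Bs σ M, X' M)}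
  {f : ∀ M, C(X' M, X M)} {d d' n : ℤ} {β γ : ∀ M, BM (X M)} {β' : ∀ M, BM (X' M)}
  {α α₁ : ∀ M, H (X M)} {α' : ∀ M, H (X' M)} {x x₁ : R σ ⊗[ℂ] H A} {x' : R σ ⊗[ℂ] H A'}
  {I : K ⊗[ℂ] H A →ₗ[K] K} {I' : K ⊗[ℂ] H A' →ₗ[K] K}

theorem Rst.mul (h : Rst i α x) (h₁ : Rst i α₁ x₁) : Rst i (α * α₁) (x * x₁) := fun M => by
  rw [Pi.mul_apply, map_mul, map_mul, h, h₁]

theorem Rst.add (h : Rst i α x) (h₁ : Rst i α₁ x₁) : Rst i (α + α₁) (x + x₁) := fun M => by
  rw [Pi.add_apply, map_add, map_add, h, h₁]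

theorem Rst.smul (h : Rst i α x) (c : ℂ) : Rst i (c • α) (c • x) := fun M => by
  rw [Pi.smul_apply, H.map_smulC, map_smul, h]

theorem Rst.zero : Rst i 0 0 := fun M => by rw [Pi.zero_apply, map_zero, map_zero]

theorem Rst.one : Rst i 1 1 := fun M => by rw [Pi.one_apply, map_one, map_one]

theorem Rst.unique (h : Rst i α x) (h₁ : Rst i α x₁) : x = x₁ :=
  evA_ext fun M => (h M).symm.trans (h₁ M)

theorem Rst.comap (h : Rst i α x) {φ : C(A', A)} (e : ∀ M z, f M (i' M z) = i M (pr φ M z)) :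
    Rst i' (fun M => H.map (f M) (α M)) (pb _ φ x) := fun M => by
  rw [← map_evA, ← h, H.map_map, H.map_map]
  exact congrArg (H.map · _) (ContinuousMap.ext (e M))

theorem Tws.comap (h : α ∈ Tws k) (e : ∀ M x, f (M + 1) (k' M x) = k M (f M x)) :
    (fun M => H.map (f M) (α M)) ∈ Tws k' := by
  induction h using Submodule.span_induction with
  | zero => exact mem_of_eq_of_mem (funext fun M => map_zero _) (zero_mem _)
  | add x y _ _ hx hy => exact mem_of_eq_of_mem (funext fun M => map_add _ _ _) (add_mem hx hy)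
  | smul z x _ hx =>
    exact mem_of_eq_of_mem (funext fun M => H.map_smulC _ _ _) (Submodule.smul_mem _ z hx)
  | mem α hα =>
    obtain ⟨h1, n, h2⟩ := hα
    refine Tws.of (fun M => ?_) fun M => (h2 M).map _
    rw [← h1 M, H.map_map, H.map_map]
    exact congrArg (H.map · _) (ContinuousMap.ext (e M))

theorem Tws.comp (h : ∀ M, H.map (k M) (α (M + 1)) = α M) (n : ℤ) :
    (fun M => H.comp n (α M)) ∈ Tws k :=
  Tws.of (fun M => by rw [← H.comp_map, h]) fun _ => H.isDeg_comp _ _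

theorem MpB.map_eb (h : MpB k' b' k b f) (M : ℕ) (g : R σ) : H.map (f M) (eb b M g) = eb b' M g := by
  rw [eb_apply, H.map_map]
  exact congrArg (H.map · _) (ContinuousMap.ext (h.b M))

namespace OvB

variable (h : OvB k b)
include h

theorem isCo (M : ℕ) : IsCo (range (k M)) (Fintype.card σ) (pull (b (M + 1)) (colB σ M)) :=
  IsCo.mono' (IsCo.pull' ((TS.triv σ pt).isCo_col M) (b (M + 1)).continuous) (h.car M)

theorem map_eb (M : ℕ) (g : R σ) : H.map (k M) (eb b (M + 1) g) = eb b M g := by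
  rw [eb_apply, eb_apply, lam, lam, ← (TS.triv σ pt).map_inc_e M g, H.map_map, H.map_map]
  exact congrArg (H.map · _) (ContinuousMap.ext (h.sq M))

theorem eb_mem (g : R σ) : (fun M => eb b M g) ∈ Tws k := by
  induction g using MvPolynomial.induction_on' with
  | add p q hp hq => exact mem_of_eq_of_mem (funext fun M => map_add _ _ _) (add_mem hp hq)
  | monomial l c =>
    exact Tws.of (h.map_eb · _) fun M =>
      ((TS.triv σ pt).e_deg M (MvPolynomial.isHomogeneous_monomial (d := l) c rfl)).map _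

theorem push_gys (M : ℕ) (β : BM (X (M + 1))) :
    push (k M) (gys (k M) (pull (b (M + 1)) (colB σ M)) β) =
      cap (eb b (M + 1) (∏ i, MvPolynomial.X i)) β := by
  rw [push_gys_eq_cap (h.emb M) (h.isCo M).cocycle (h.isCo M).supp, eb_apply, lam, ← TS.hcls_col,
    H.map_hcls _ ((TS.triv σ pt).isCo_col M).cocycle]

end OvB

namespace IsB

/-- **existence of equivariant integrals** -/
theorem exists_rep (hβ : IsB k b d β) (h : OvB k b) (hα : α ∈ Tws k) :
    ∃ Q, Rep (fun M g => intg (β M) (α M * eb b M g)) Q := by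
  induction hα using Submodule.span_induction with
  | zero => exact ⟨0, rep_zero.congr fun M f => by rw [Pi.zero_apply, zero_mul, map_zero]⟩
  | add x y _ _ hx hy =>
    obtain ⟨_, hx⟩ := hx
    obtain ⟨_, hy⟩ := hy
    exact ⟨_, (hx.add hy).congr fun M f => by rw [Pi.add_apply, add_mul, map_add]⟩
  | smul z x _ hx =>
    obtain ⟨_, hx⟩ := hx
    exact ⟨_, (hx.smul z).congr fun M f => by
      rw [Pi.smul_apply, smul_mul_assoc, map_smul, smul_eq_mul]⟩
  | mem α hα =>
    obtain ⟨hα, n, hn⟩ := hα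
    refine Loc.exists_rep (φ := fun M => intg (β M) ∘ₗ LinearMap.mulLeft ℂ (α M) ∘ₗ
      (eb b M).toLinearMap) (fun M g => ?_) (fun M i g => ?_)
      (D := (n - d).toNat) fun M l hl => ?_
    · change intg (β M) (α M * eb b M g) = intg (β (M + 1)) (α (M + 1) * eb b (M + 1) (_ * g))
      rw [← hα M, ← h.map_eb, ← map_mul, ← intg_push, ← hβ.step, h.push_gys, intg_cap,
        mul_comm _ g, map_mul (eb b (M + 1)), mul_assoc]
    · change intg (β M) (α M * eb b M (_ * g)) = 0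
      rw [map_mul (eb b M), eb_apply, lam, TS.e_X_pow, map_zero, zero_mul, mul_zero, map_zero]
    · refine intg_deg (hβ.deg M) ((hn M).mul (((TS.triv σ pt).e_deg M
        (MvPolynomial.isHomogeneous_monomial (d := l) 1 rfl)).map (b M))) ?_
      have : ((l.degree + (n - d).toNat : ℕ) : ℤ) < (Fintype.card σ * M : ℕ) := by
        exact_mod_cast hl
      push_cast at this
      omega

theorem cap (hβ : IsB k b d β) (h : OvB k b) (hα : ∀ M, H.map (k M) (α (M + 1)) = α M)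
    (hn : ∀ M, H.IsDeg n (α M)) : IsB k b (d - n) fun M => cap (α M) (β M) :=
  ⟨fun M => by rw [gys_cap (h.emb M) (h.isCo M), hα, hβ.step], fun M =>
    (congrArg (BM.IsDeg · _) (by ring)).mp ((hβ.deg M).cap (hn M))⟩

theorem push (hβ : IsB k' b' d β') (h' : OvB k' b') (h : OvB k b) (m : MpB k' b' k b f) :
    IsB k b d fun M => push (f M) (β' M) :=
  ⟨fun M => by
    rw [gys_push (h.emb M) (h'.emb M) (IsPr.of_compact (f _).continuous)
      (IsPr.of_compact (f M).continuous) (m.k M) (fun x ⟨y, e⟩ => h'.car M ⟨b M y, by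
        rw [← h.sq, e, m.b]⟩) (h.isCo M).cocycle (h.isCo M).supp, pull_pull,
      show b (M + 1) ∘ f (M + 1) = b' (M + 1) from funext (m.b _), hβ.step],
    fun M => (hβ.deg M).push _⟩

/-- **Poincare duality** -/
theorem exists_dual (hβ : IsB k b d β) (h : OvB k b)
    (ho : ∀ M : ℕ, Ori (d + 2 * (Fintype.card σ * M)) (β M)) (hγ : IsB k b d' γ) :
    ∃ c ∈ Tws k, ∀ M, P291Z.cap (c M) (β M) = γ M := by
  choose t h1 h2 h3 using fun M => (ho M).exists_cap (hγ.deg M)
  refine ⟨fun M => hcls (t M), Tws.of (n := d - d') (fun M => (ho M).pd_bijective.1 ?_) fun M =>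
    (congrArg (H.IsDeg · _) (by ring)).mp (hcls_isDeg (h2 M)), h3⟩
  rw [pd_eq_cap, pd_eq_cap, h3, ← hβ.step, ← gys_cap (h.emb M) (h.isCo M), h3, hγ.step]

end IsB

theorem exists_bd (x : R σ ⊗[ℂ] H A) :
    ∃ N : ℕ, ∀ N' ≥ N, ∀ M, ∑ n ∈ Finset.range N', H.comp (n : ℤ) (evA A M x) = evA A M x := by
  let p : R σ ⊗[ℂ] H A → Prop := fun x =>
    ∃ N : ℕ, ∀ N' ≥ N, ∀ M, ∑ n ∈ Finset.range N', H.comp (n : ℤ) (evA A M x) = evA A M x
  have h0 : p 0 := ⟨0, fun _ _ M => by simp⟩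
  have ha : ∀ x y, p x → p y → p (x + y) := fun x y ⟨N, a⟩ ⟨N₁, a₁⟩ => ⟨max N N₁, fun N' e M => by
    simp only [map_add, Finset.sum_add_distrib, a N' (le_of_max_le_left e),
      a₁ N' (le_of_max_le_right e)]⟩
  change p x
  induction x with
  | zero => exact h0
  | add x y hx hy => exact ha x y hx hy
  | tmul g c =>
    induction g using MvPolynomial.induction_on' with
    | add p q hp hq => rw [add_tmul]; exact ha _ _ hp hq
    | monomial l z =>
      refine H.induction_deg (P := fun c => p (MvPolynomial.monomial l z ⊗ₜ c)) c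
        (by rw [tmul_zero]; exact h0) (fun _ _ a a' => by rw [tmul_add]; exact ha _ _ a a') fun n => ?_
      refine ⟨(2 * l.degree + n).toNat + 1, fun N' e M => ?_⟩
      have hd : H.IsDeg (2 * l.degree + n) (evA A M (MvPolynomial.monomial l z ⊗ₜ H.comp n c)) :=
        (((TS.triv σ pt).e_deg M (MvPolynomial.isHomogeneous_monomial (d := l) z rfl)).map _).mul
          ((H.isDeg_comp n c).map _)
      rcases lt_or_ge (2 * l.degree + n : ℤ) 0 with a | a
      · simp [hd.eq_zero a]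
      · rw [Finset.sum_eq_single (2 * l.degree + n).toNat (fun m _ hm => hd.comp_ne (by omega))
          fun hm => (hm (Finset.mem_range.2 e)).elim, Int.toNat_of_nonneg a, hd.comp_eq]

/-- compatible systems can be truncated -/
theorem Rst.exists_tws (h : Rst i α x) (hα : ∀ M, H.map (k M) (α (M + 1)) = α M) :
    ∃ α₁ ∈ Tws k, Rst i α₁ x := by
  obtain ⟨N, hN⟩ := exists_bd x
  refine ⟨_, sum_mem (t := Finset.range N) fun n _ => Tws.comp hα (n : ℤ), fun M => ?_⟩
  rw [Finset.sum_apply, map_sum, ← hN N le_rfl M, ← h]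
  exact Finset.sum_congr rfl fun n _ => (H.comp_map _ _ _).symm

section gy

variable {Y Z : Type} [TopologicalSpace Y] [Nice Y] [CompactSpace Y] [TopologicalSpace Z] [Nice Z]
  [CompactSpace Z] {j : C(Z, Y)} (hj : IsClosedEmbedding j) {u : Coch Y} (h1 : supp (δ u) = ∅)
  (h2 : supp u ⊆ range j)
include hj h1 h2

theorem exists_gy : ∃ G : H Z → H Y, (∀ c, H.map j (G c) = c * H.map j (hcls u)) ∧
    ∀ a, G (H.map j a) = a * hcls u := by
  have e : ∀ c : Hc Y, Fl.toH (Hc.pull (IsPr.of_isClosedEmbedding hj) c) = H.map j (Fl.toH c) :=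
    fun c => by
      obtain ⟨a, ha, rfl⟩ := cls_surj c
      rw [Hc.pull_cls _ ha, Fl.toH_cls ha, Fl.toH_cls ⟨(isClosed_supp _).isCompact,
        cocycle_pull j.continuous ha.2⟩,
        H.map_hcls _ ha.2]
  have e' : ∀ {T : Type} [TopologicalSpace T] {t : Coch T} (ht : supp (δ t) = ∅) (c : Hc T),
      Fl.toH (Hc.mulR ht c) = Fl.toH c * hcls t := fun ht c => by
    obtain ⟨a, ha, rfl⟩ := cls_surj c
    rw [Hc.mulR_cls _ ha, Fl.toH_cls ha, Fl.toH_cls (mul_Zc ha ht), hcls_mul ha.2 ht]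
  let q := Equiv.ofBijective _ (Fl.toH_bijective (X := Z))
  refine ⟨fun c => Fl.toH (Hc.gys hj h1 h2 (q.symm c)), fun c => ?_, fun a => ?_⟩
  · rw [← e, Hc.pull_gys hj h1 h2 (cocycle_pull j.continuous h1), e', H.map_hcls _ h1]
    exact congrArg (· * _) (q.apply_symm_apply c)
  · obtain ⟨a, rfl⟩ := Fl.toH_bijective.2 a
    rw [← e, ← e' h1, ← Hc.gys_pull hj h1 h2]
    exact congrArg (fun c => Fl.toH (Hc.gys hj h1 h2 c)) (q.symm_apply_apply _)

end gy

namespace Sy

variable (S : Sy χ k i b)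
include S

theorem map_eb_i (M : ℕ) (g : R σ) : H.map (i M) (eb b M g) = evA A M (g ⊗ₜ 1) := by
  rw [eb_apply, H.map_map, evA_one]
  exact congrArg (H.map · _) (ContinuousMap.ext (S.b_i M))

theorem rs_eb (g : R σ) : Rst i (fun M => eb b M g) (g ⊗ₜ 1) := fun M => S.map_eb_i M g

theorem map_k (M : ℕ) (c : H (X (M + 1))) :
    H.map (i M) (H.map (k M) c) = H.map (incA A M) (H.map (i (M + 1)) c) := by
  rw [H.map_map, H.map_map]
  exact congrArg (H.map · _) (ContinuousMap.ext (S.k_i M))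

theorem exists_rs (hα : α ∈ Tws k) : ∃ x, Rst i α x := by
  induction hα using Submodule.span_induction with
  | zero => exact ⟨0, Rst.zero⟩
  | add x y _ _ hx hy => exact hx.elim fun _ a => hy.elim fun _ c => ⟨_, a.add c⟩
  | smul z x _ hx => exact hx.elim fun _ a => ⟨_, a.smul z⟩
  | mem α hα =>
    obtain ⟨h1, n, h2⟩ := hα
    exact (exists_evA (c := fun M => H.map (i M) (α M)) (fun M => (h2 M).map _) fun M => by
      rw [← S.map_k, h1]).imp fun x a M => (a M).symm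

/-- **the localisation formula** -/
theorem loc (hI : IsLoc χ β i I) (hx : Rst i α x) {Q : R σ}
    (hQ : Rep (fun M g => intg (β M) (α M * eb b M g)) Q) : χ Q = I (bc _ χ x) :=
  let ⟨_, _, hp, hu, h⟩ := S.cut
  hI.sum hp hu (fun M => (h M).1) (fun M => (h M).2.1) (e := eb b) (fun M => (h M).2.2)
    S.map_eb_i hx hQ

theorem int (hβ : IsB k b d β) (hI : IsLoc χ β i I) (hα : α ∈ Tws k) (hx : Rst i α x) :
    ∃ Q, χ Q = I (bc _ χ x) :=
  (hβ.exists_rep S.toOvB hα).imp fun _ => S.loc hI hx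

/-- **full rank** -/
theorem full : ∃ p, χ p ≠ 0 ∧ ∀ x, ∃ α ∈ Tws k, Rst i α (x * p ⊗ₜ 1) := by
  obtain ⟨p, u, hp, hu, h⟩ := S.cut
  choose G h1 h2 using fun M => exists_gy (hu.emb M) (h M).1 (h M).2.1
  simp only [fun M => (h M).2.2, S.map_eb_i] at h1 h2
  refine ⟨p * p, ne_mul hp hp, fun x => Rst.exists_tws
    (α := fun M => G M (evA A M x) * eb b M p) (fun M => ?_) fun M => ?_⟩
  · rw [map_mul, h1, S.map_eb_i, ← map_mul, ← map_mul, mul_assoc,
      Algebra.TensorProduct.tmul_mul_tmul, mul_one]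
  · rw [map_mul, S.map_eb, ← h2, ← h2, S.map_k, h1, h1, ← map_mul, ← map_mul, map_incA]

theorem ext {J J' : K ⊗[ℂ] H A →ₗ[K] K}
    (h : ∀ α ∈ Tws k, ∀ x, Rst i α x → J (bc _ χ x) = J' (bc _ χ x)) : J = J' := by
  obtain ⟨p, hp, e⟩ := S.full
  refine AlgebraTensorModule.ext fun c a => ?_
  obtain ⟨α, h1, h2⟩ := e (1 ⊗ₜ a)
  have := h α h1 _ h2
  rw [map_mul, bc_tmul, bc_tmul, map_one, mul_tmul_one, map_smul, map_smul] at this
  rw [← mul_one c, ← smul_eq_mul, ← smul_tmul', map_smul, map_smul,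
    smul_right_injective K hp this]

/-- **transfer along a map of towers** -/
theorem transfer (S' : Sy χ k' i' b') (m : MpB k' b' k b f) {φ : C(A', A)}
    (e : ∀ M z, f M (i' M z) = i M (pr φ M z)) (hβ : IsB k b d β)
    (ho : ∀ M : ℕ, Ori (d + 2 * (Fintype.card σ * M)) (β M)) (hI : IsLoc χ β i I)
    (hβ' : IsB k' b' d' β') (hI' : IsLoc χ β' i' I') (hα : α' ∈ Tws k') (hx : Rst i' α' x') :
    ∃ c ∈ Tws k, ∃ z, Rst i c z ∧ ∀ y, I' (pb K φ y * bc _ χ x') = I (y * bc _ χ z) := by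
  have : ∃ c ∈ Tws k, ∀ M, cap (c M) (β M) = push (f M) (cap (α' M) (β' M)) := by
    clear hx
    induction hα using Submodule.span_induction with
    | zero => exact ⟨0, zero_mem _, fun M => by
        simp only [Pi.zero_apply, ← pd_eq_cap, map_zero]⟩
    | add x y _ _ hx hy =>
      obtain ⟨c, a, hx⟩ := hx
      obtain ⟨c', a', hy⟩ := hy
      exact ⟨c + c', add_mem a a', fun M => by
        simp only [← pd_eq_cap] at hx hy
        simp only [Pi.add_apply, ← pd_eq_cap, map_add, hx, hy]⟩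
    | smul z x _ hx =>
      obtain ⟨c, a, hx⟩ := hx
      exact ⟨z • c, Submodule.smul_mem _ z a, fun M => by
        simp only [← pd_eq_cap] at hx
        simp only [Pi.smul_apply, ← pd_eq_cap, map_smul, hx]⟩
    | mem α hα =>
      obtain ⟨h1, n, h2⟩ := hα
      exact hβ.exists_dual S.toOvB ho ((hβ'.cap S'.toOvB h1 h2).push S'.toOvB S.toOvB m)
  obtain ⟨c, hc, h⟩ := this
  obtain ⟨z, hz⟩ := S.exists_rs hc
  refine ⟨c, hc, z, hz, LinearMap.congr_fun (S.ext (J := I' ∘ₗ LinearMap.mulRight K _ ∘ₗ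
    (pb K φ).toLinearMap) (J' := I ∘ₗ LinearMap.mulRight K _) fun α h1 x h2 => ?_)⟩
  obtain ⟨Q, hQ⟩ := hβ.exists_rep S.toOvB (Tws.mul h1 hc)
  change I' (pb K φ (bc _ χ x) * _) = I (_ * _)
  rw [← bc_pb, ← map_mul, ← map_mul, ← S.loc hI (h2.mul hz) hQ]
  refine (S'.loc hI' ((h2.comap e).mul hx) (hQ.congr fun M g => ?_)).symm
  rw [Pi.mul_apply, Pi.mul_apply, mul_assoc, mul_assoc, eb_comm, eb_comm, ← mul_assoc, ← mul_assoc,
    ← intg_cap (β M), h, intg_push, map_mul (H.map _), m.map_eb, intg_cap]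

end Sy

end Vale.Agent.P269.LG
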