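import Vale.Agent.P287Q.Lam.TC
import Vale.Agent.P287Q.Lam.Gl
import Vale.Agent.P287Q.Lz.DgB
import Vale.Agent.P287Q.Lz.Dg3

/-! The localised theory of the target. -/

set_option linter.unusedSectionVars false
set_option linter.style.haveILetI false

namespace Vale.Agent.P269.Lz

open Set Function Topology TensorProduct B Vale.Agent.P291Z Vale.Agent.P269.Ch
  Vale.Agent.P269.Orb Vale.Agent.P269.Loc LG

variable {R J K σ : Type} [Fintype R] [Fintype J] [Fintype K] [Fintype σ] [DecidableEq R]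
  [DecidableEq σ] {P : TT R J K σ} {K₀ : RD R} {k D : ℕ} {a : σ → ℂ}

theorem TT.X_ind {M : ℕ} {Q : P.X × Bs σ M → Prop}
    (h : ∀ (z : P.Fix) p, Q (Quo.mk _ z, bp p)) (x) : Q x := by
  obtain ⟨z, b⟩ := x
  obtain ⟨z, rfl⟩ := Tq.mk_surj z
  obtain ⟨p, rfl⟩ := isOpenQuotientMap_bp.surjective b
  exact h z p

/-- **the localised theory of the target exists** -/
theorem TT.Ok.exists_TG (h : P.Ok K₀ k D) (ha : LinearIndependent ℚ a) : Nonempty (TG P a) := by
  haveI := h.niceXE
  haveI := h.nice_X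
  haveI := h.compact_X
  obtain ⟨i2, δ, h1, h2⟩ := TT.exists_i2 h.good.toInv h.niceEM D3c.cp_EM
  obtain ⟨I, hI⟩ := (TC.sy h.lv (chiA_lin_ne ha) h.φ
    (i := fun M => (h.lv M).i.comp ((h.φ : C(_, _)).prodMap (.id _))) fun _ _ _ => rfl).2
  rw [funext h.β_eq] at hI
  exact ⟨{ i := _
           i_mk := fun M z p => ⟨_, h.i_φ M z p⟩
           k := fun M => (h.lv M).inc (h.lv (M + 1))
           k_mk := fun _ => h.inc_mk
           i2 := i2
           i2_mk := h1
           δ := δ
           hδ := h2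
           I := I
           loc := hI }⟩

namespace TG

variable (t : TG P a) (h : P.Ok K₀ k D)

theorem k_eq : t.k = fun M => (h.lv M).inc (h.lv (M + 1)) :=
  funext fun M => ContinuousMap.ext fun z => by
    obtain ⟨p, y, c, rfl⟩ := h.mk_surj z
    exact (t.k_mk M p y c).2.trans (h.inc_mk p y c).2.symm

theorem i_φ (M : ℕ) (z b) : (h.lv M).i (h.φ z, b) = t.i M (z, b) :=
  TT.X_ind (Q := fun x => (h.lv M).i (h.φ x.1, x.2) = t.i M x)
    (fun z p => (h.i_φ M z p).trans (t.i_mk M z p).2.symm) (z, b)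

theorem isB : haveI := t.nice
    IsB t.k (fun M => (h.lv M).b) (2 * h.dim) fun M => Tq.fnd (P.EM M).actT (P.EM M).cone :=
  t.k_eq h ▸ h.isB

variable (ha : LinearIndependent ℚ a)
include ha

theorem sy : haveI := t.nice; haveI := t.niceX; haveI := t.cptX
    LG.Sy (chiA a) t.k t.i fun M => (h.lv M).b :=
  haveI := t.nice; haveI := t.niceX; haveI := t.cptX
  t.k_eq h ▸ (TC.sy h.lv (chiA_lin_ne ha) h.φ (t.i_φ h)).1

include h

/-- **non-degeneracy** -/
theorem nondeg {y : F ⊗[ℂ] H P.X} (hy : ∀ z, t.I (y * z) = 0) : y = 0 :=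
  haveI := t.nice; haveI := t.niceX; haveI := t.cptX; haveI := h.compact_EM
  (t.sy h ha).nondeg (t.isB h) h.ori t.loc hy

omit ha in
/-- odd classes do not contribute -/
theorem even (x : F ⊗[ℂ] H P.X) : t.I (((parH P.X).bc F).σ x) = t.I x :=
  haveI := t.nice; haveI := t.niceX; haveI := t.cptX; haveI := h.compact_EM
  t.loc.even (t.isB h).ev x

end TG

end Vale.Agent.P269.Lz
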