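import Vale.Agent.P287Q.Lam.SyB
import Vale.Agent.P269.LG.BorV

/-! Smooth compact quotients with an action of a torus as torus charts. -/

set_option linter.unusedSectionVars false
set_option linter.style.haveILetI false

namespace Vale.Agent.P269.LG

open Set Function Topology Module TensorProduct Vale.Agent.P291Z Vale.Agent.P269.Ch
  Vale.Agent.P269.Orb Vale.Agent.P269.Loc Vale.Agent.P269.Mono

variable {σ : Type} [Fintype σ] {A B W W' P : Type} [NormedRing A] [NormedAlgebra ℂ A] [NormedRing B]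
  [NormedAlgebra ℂ B] [NormedAddCommGroup W] [NormedSpace ℂ W] [NormedAddCommGroup W']
  [NormedSpace ℂ W'] [AddCommGroup P] [Module ℂ P]
  [TopologicalSpace P] [FiniteDimensional ℂ A] [FiniteDimensional ℂ B] [FiniteDimensional ℂ W]
  [FiniteDimensional ℂ W'] {act₀ : A → W → W} {act : B → W → W}
  {D : KD B W P} {Z O : Set W} [IsTopologicalAddGroup P] [ContinuousSMul ℂ P] [T2Space P]
  {M n v r : ℕ} {act' : B → W' → W'} {Z' : Set W'}

variable (A W) in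
/-- the trivial Kuranishi data -/
def kd0 : KD A W (Empty → ℂ) := ⟨fun _ q => q, ⊤, fun _ => ⊤, fun _ => ⊤, fun _ => 0⟩

theorem kd0_ok : (kd0 B W).Ok act O 0 0 :=
  ⟨inferInstanceAs (FiniteDimensional ℂ (⊤ : Submodule ℂ (Empty → ℂ))), ⟨fun _ _ _ _ => trivial,
    fun _ _ _ _ _ _ => rfl, fun _ _ _ _ _ => rfl, fun _ _ => rfl, fun _ _ _ _ _ _ => rfl,
    fun _ _ => continuous_const⟩, ⟨fun _ _ => le_rfl, isClosed_univ,
    fun _ _ => finrank_zero_of_subsingleton, fun _ _ _ _ _ _ => trivial⟩, fun _ _ => trivial,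
    continuousOn_const, fun _ _ _ _ => rfl, isClosed_univ.inter isClosed_univ,
    fun _ _ _ => finrank_zero_of_subsingleton, fun _ _ _ _ _ _ _ => trivial, fun _ _ _ => le_rfl,
    fun _ _ _ => le_rfl, fun _ _ _ _ _ _ _ _ _ _ _ => trivial⟩

theorem vir_id {Y : Ch.Sp} {k : KP Y} (hr : k.r = 0) (hi : k.IsZ (id : Y.X → Y.X)) (β : BM Y.X) :
    k.vir id β = β := by
  have e : (trivB Y (Fin 0 → ℂ)).r = 0 := finrank_fin_fun ℂ
  have m : k.Model (Mor.id _) (trivB _ (Fin 0 → ℂ)) fun _ => 0 :=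
    ⟨⟨⟨fun _ _ _ => trivial, continuous_const, fun _ _ _ _ => rfl⟩, fun _ _ _ => rfl,
      fun t ht w hw _ => (Submodule.eq_of_le_of_finrank_eq (k.le_obs t ht)
        ((k.van_rank t).trans (hr ▸ k.obs_rank t ht :).symm)).ge hw⟩, e.trans hr.symm⟩
  have a : ⇑(Mor.id Y).map = id := (Mor.map_eq _ fun _ => rfl).symm
  rw [hi.vir_eq_gys m (a ▸ IsOpenEmbedding.id) (i' := id) (congrFun a) fun t _ => ⟨_, rfl⟩,
    gys_id_eq_cap m.isSec.isCo.cocycle, VB.IsSec.hcls_eul, VB.eu_eq_one _ e, a, res_id']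
  exact cap_one _

theorem vr_fu {D : KD A W P} (h : D.Gd act₀ Z O v r) (e : O = Z) (hr : r = 0)
    [Holo.IsAct act₀ univ] [FP act₀ Z] (hd : Tq.Dim act₀ Z n) :
    D.vr act₀ Z O (h.fu n) = Tq.fnd act₀ Z := by
  subst e hr
  obtain ⟨k, i, hk, -, hr, hv⟩ := h.exists_isKP
  have a : Quo.incl act₀ h.dom.sub = id := funext (Tq.mk_surj.forall.2 fun _ => rfl)
  have b := h.dom.isZ hk
  rw [a] at hv b
  exact (LinearMap.congr_fun hv _).trans ((vir_id hr b _).trans hd.fnd_eq.symm)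

/-- a smooth compact quotient as a torus chart -/
noncomputable def tc0 (u : (A × (σ → ℂ)) ≃ₐ[ℂ] B) [h₀ : Holo.IsAct act₀ univ]
    (h : Holo.IsAct act univ) (lin : ∀ b, IsUnit b → IsLinearMap ℂ (act b))
    (eq : ∀ a, IsUnit a → ∀ x, act₀ a x = act (u (a, 1)) x) (ivt : Ivt act Z) [f : FP act₀ Z]
    (hd : Tq.Dim act₀ Z n) (hc : CompactSpace (Quo act₀ Z)) : TC σ act₀ act (kd0 B W) Z where
  u := u
  O := Z
  dm := Z
  n := n
  v := 0
  r := 0
  isAct₀ := h₀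
  isAct := h
  lin := lin
  eq := eq
  ok := kd0_ok
  sub := Subset.rfl
  ivt := ivt
  ivtZ := ivt
  dom := ⟨Subset.rfl, ⟨univ, isOpen_univ, (inter_univ _).symm⟩, f.toIsAct, Tq.orb act₀ Z,
    fun _ hx => iff_of_true trivial hx⟩
  cpt _ hs := ivt _ ((Prod.isUnit_iff.2 ⟨isUnit_one, Pi.isUnit_iff.2 fun i => IsUnit.mk0 _
    (norm_ne_zero_iff.1 ((hs i).trans_ne one_ne_zero))⟩).map u)
  mf := hd
  cZ := hc

namespace TC

variable {c : TC σ act₀ act D Z}

section sm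

variable (hO : c.O = Z) (L : c.Lv M act' Z')
include hO

theorem Lv.O_eq : L.O = Z' := Set.ext fun y => by
  obtain ⟨⟨x, p⟩, rfl⟩ := L.μ.surjective y
  rw [L.mem_O, L.mem, hO]
  exact ⟨fun ⟨a, b⟩ => ⟨(Lv.b_mem_iff _).1 b, a⟩, fun ⟨a, b⟩ => ⟨b, c.b_mem c.ivtZ _ a⟩⟩

include L in
theorem Lv.dim : Tq.Dim act' Z' (c.n + Fintype.card σ * M) := L.O_eq hO ▸ L.mf

theorem Lv.β_fnd (hr : c.r = 0) [Holo.IsAct act' univ] [FP act' Z'] : L.β = Tq.fnd act' Z' :=
  L.β_eq.trans (vr_fu L.gd (L.O_eq hO) hr (L.dim hO))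

theorem β₀_fnd (hr : c.r = 0) [Holo.IsAct act₀ univ] [FP act₀ Z] : c.β₀ = Tq.fnd act₀ Z :=
  (LinearMap.congr_fun (c.dom.vr_eq c.isKP) _).symm.trans (vr_fu c.gd hO hr fun x hx => by
    simpa only [hO] using c.mf x (hO.ge hx))

end sm

/-- the projection to the classifying space -/
noncomputable def Lv.b (L : c.Lv M act' Z') : C(Quo act' Z', Bs σ M) := (bs c.h.toTS M).comp L.j

theorem Lv.b_cl (L : c.Lv M act' Z') (x hx p) : L.b (L.cl x hx p) = bp p :=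
  (congrArg (bs _ M) (L.j_cl x hx p)).trans (bs_π _ _)

theorem Lv.eb_b {V : ℕ → Type} [∀ M, NormedAddCommGroup (V M)] [∀ M, NormedSpace ℂ (V M)]
    [∀ M, FiniteDimensional ℂ (V M)] {ac : ∀ M, B → V M → V M} {ZM : ∀ M, Set (V M)}
    (L : ∀ M, c.Lv M (ac M) (ZM M)) (M : ℕ) (f : R σ) : eb (fun M => (L M).b) M f = (L M).e f :=
  haveI := fun M => (L M).nice
  haveI := fun M => (L M).compactSpace
  eb_bs M f

variable {V : ℕ → Type} [∀ M, NormedAddCommGroup (V M)] [∀ M, NormedSpace ℂ (V M)]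
  [∀ M, FiniteDimensional ℂ (V M)] {ac : ∀ M, B → V M → V M} {ZM : ∀ M, Set (V M)}
  (L : ∀ M, c.Lv M (ac M) (ZM M)) [∀ M, Nice (Quo (ac M) (ZM M))] {K : Type} [Field K]
  [Algebra ℂ K] {χ : R σ →ₐ[ℂ] K}

theorem isB : IsB (fun M => (L M).inc (L (M + 1))) (fun M => (L M).b) (2 * (c.n - c.r))
    fun M => (L M).β :=
  haveI := fun M => (L M).compactSpace
  IsTw.isB (pc L).emb (pc L).rng (fun M => (L M).j_inc _) (isTw L)

/-- a chart with a copy `A'` of the fixed locus -/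
theorem sy (hχ : ∀ w ≠ 0, χ (Loc.lin w) ≠ 0) {A' : Type} [TopologicalSpace A'] [Nice A']
    [CompactSpace A'] (φ : A' ≃ₜ c.F) {i : ∀ M, C(A' × Bs σ M, Quo (ac M) (ZM M))}
    (hi : ∀ M z b, (L M).i (φ z, b) = i M (z, b)) :
    Sy χ (fun M => (L M).inc (L (M + 1))) i (fun M => (L M).b) ∧
      ∃ I, IsLoc χ (fun M => (L M).β) i I := by
  haveI := fun M => (L M).compactSpace
  have e : range (c.g.comp (φ : C(A', c.F))) = c.Y.π '' (c.h.toTS.Fix ∩ c.k.Zs) :=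
    (φ.surjective.range_comp c.g).trans c.range_g
  have h : Pc c.h.toTS c.k.Zs (fun M => (L M).j) (c.g.comp (φ : C(A', c.F))) i :=
    ⟨(pc L).emb, (pc L).rng, (pc L).inj.comp φ.injective, e.le, Isol.of_subset e.ge,
      fun M z t p a => (congrArg _ (hi M z _).symm).trans ((pc L).eq M _ t p a)⟩
  exact ⟨h.sy hχ e.ge fun M => (L M).j_inc _, h.exists_isLoc hχ (isTw L)⟩

end TC

end Vale.Agent.P269.LG
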