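import Vale.Agent.P287Q.Lam.TyA
import Vale.Agent.P287Q.Lam.Sy

/-!
# Weights of equivariant classes and of their restrictions
-/

set_option linter.unusedSectionVars false

namespace Vale.Agent.P287Q.Lam

open Set Function Topology Filter TensorProduct P291Z P269 P269.Ch P269.Loc P269.LG

theorem BG.WE_eq {X : Type} [TopologicalSpace X] {T : ℤ → ℤ → Submodule ℂ (H X)} (h : BG T)
    (n : ℤ) : WE T n = ⨆ p, (T p (p - n)).comap (Hev X).val.toLinearMap := by
  refine le_antisymm (fun c hc => ?_) (iSup_le fun p => Submodule.comap_mono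
    (le_iSup (fun p => T p (p - n)) p))
  obtain ⟨b, hb, e⟩ : h.wp n c.1 ∈
      (⨆ p, (T p (p - n)).comap (Hev X).val.toLinearMap).map (Hev X).val.toLinearMap :=
    Hev.induction (P := fun c => h.wp n c ∈
      (⨆ p, (T p (p - n)).comap (Hev X).val.toLinearMap).map (Hev X).val.toLinearMap) c.2
      (fun d c hc => h.wp_ind hc fun p q e e' c hc => ⟨⟨c, mem_Hev (e ▸ h.deg p q c hc)⟩,
        Submodule.mem_iSup_of_mem p ((show q = p - n by omega) ▸ hc), rfl⟩)
      fun a b ha hb => by rw [map_add]; exact add_mem ha hb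
  exact (Subtype.ext (e.trans (h.wp_self hc)) : b = c) ▸ hb

variable {σ : Type} [Fintype σ] {K : Type} [Field K] [Algebra ℂ K] {χ : Loc.R σ →ₐ[ℂ] K}
  {A : Type} [TopologicalSpace A] [Nice A] [CompactSpace A] {X : ℕ → Type}
  [∀ M, TopologicalSpace (X M)] [∀ M, Nice (X M)] [∀ M, CompactSpace (X M)]

variable (K A) in
/-- the inclusion of the even part -/
noncomputable abbrev inK : K ⊗[ℂ] Hev A →ₐ[K] K ⊗[ℂ] H A :=
  Algebra.TensorProduct.map (AlgHom.id K K) (Hev A).val

theorem inK_injective : Injective (inK K A) :=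
  Module.Flat.lTensor_preserves_injective_linearMap (M := K) (Hev A).val.toLinearMap
    Subtype.val_injective

theorem inK_bc (x : Loc.R σ ⊗[ℂ] Hev A) : inK K A (bc _ χ x) = bc _ χ (inH A x) := by
  induction x with
  | zero => simp only [map_zero]
  | add a b ha hb => simp only [map_add, ha, hb]
  | tmul f c => rfl

theorem bc_lTensor (w : Module.End ℂ (H A)) (x : Loc.R σ ⊗[ℂ] H A) :
    bc _ χ (w.lTensor _ x) = w.baseChange K (bc _ χ x) := by
  induction x with
  | zero => simp only [map_zero]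
  | add a b ha hb => simp only [map_add, ha, hb]
  | tmul f c => rfl

theorem BG.inK_we {T : ℤ → ℤ → Submodule ℂ (H A)} (h : BG T) (n : ℤ) (x : K ⊗[ℂ] Hev A) :
    inK K A ((h.we n).baseChange K x) = (h.wp n).baseChange K (inK K A x) := by
  induction x with
  | zero => simp only [map_zero]
  | add a b ha hb => simp only [map_add, ha, hb]
  | tmul f c => rfl

/-- the weights of a class on a product with the classifying space -/
theorem wp_evA {Z : Type} [TopologicalSpace Z] {T : ℤ → ℤ → Submodule ℂ (H A)}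
    {T' : ℤ → ℤ → Submodule ℂ (H Z)} (h : BG T) (h' : BG T') {M : ℕ} {f : C(Z, A)}
    {g : C(Z, Bs σ M)} (hf : ∀ p q, ∀ c ∈ T p q, H.map f c ∈ T' p q)
    (hg : ∀ s, H.map g (lam M (MvPolynomial.X s)) ∈ T' 1 1) (n : ℤ) (x : Loc.R σ ⊗[ℂ] H A) :
    H.map (f.prodMk g) (evA A M ((h.wp n).lTensor _ x)) =
      h'.wp n (H.map (f.prodMk g) (evA A M x)) := by
  have e : ∀ r : Loc.R σ, H.map g (lam M r) ∈ WT T' 0 := fun r => by
    induction r using MvPolynomial.induction_on with
    | C a =>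
      rw [← MvPolynomial.algebraMap_eq, AlgHom.commutes, Algebra.algebraMap_eq_smul_one,
        H.map_smulC, map_one]
      exact Submodule.smul_mem _ _ h'.wt_one
    | add a b ha hb => rw [map_add, map_add]; exact add_mem ha hb
    | mul_X a s ha =>
      rw [map_mul, map_mul]
      exact add_zero (0 : ℤ) ▸ h'.wt_mul ha (mem_WT (hg s) (sub_self 1))
  induction x with
  | zero => simp only [map_zero]
  | add a b ha hb => simp only [map_add, ha, hb]
  | tmul r c =>
    rw [LinearMap.lTensor_tmul, evA_tmul, evA_tmul, map_mul, map_mul, H.map_map, H.map_map,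
      H.map_map]
    exact (congrArg (_ * ·) (h.map_wp h' hf n c)).trans (h'.wp_mul n (e r) _).symm

/-- types on a tower and on its fixed locus -/
structure TW (k : ∀ M, C(X M, X (M + 1))) (i : ∀ M, C(A × Bs σ M, X M))
    (TX : ∀ M, ℤ → ℤ → Submodule ℂ (H (X M))) (TA : ℤ → ℤ → Submodule ℂ (H A)) : Prop where
  hX : ∀ M, BG (TX M)
  hA : BG TA
  hk : ∀ M p q, ∀ c ∈ TX (M + 1) p q, H.map (k M) c ∈ TX M p q
  k_i : ∀ M z, k M (i M z) = i (M + 1) (incA A M z)
  wp : ∀ M n c x, H.map (i M) c = evA A M x →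
    H.map (i M) ((hX M).wp n c) = evA A M ((hA.wp n).lTensor _ x)

variable (χ) in
/-- `y` is the restriction of the equivariant class `α` -/
def LfK (k : ∀ M, C(X M, X (M + 1))) (i : ∀ M, C(A × Bs σ M, X M)) (α : ∀ M, H (X M))
    (y : K ⊗[ℂ] H A) : Prop := α ∈ Tws k ∧ ∃ x, Rst i α x ∧ bc _ χ x = y

namespace TW

variable {k : ∀ M, C(X M, X (M + 1))} {i : ∀ M, C(A × Bs σ M, X M)}
  {TX : ∀ M, ℤ → ℤ → Submodule ℂ (H (X M))} {TA : ℤ → ℤ → Submodule ℂ (H A)} (h : TW k i TX TA)
  {α : ∀ M, H (X M)} {n : ℤ}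
include h

theorem map_wp (n : ℤ) (hα : ∀ M, H.map (k M) (α (M + 1)) = α M) (M : ℕ) :
    H.map (k M) ((h.hX (M + 1)).wp n (α (M + 1))) = (h.hX M).wp n (α M) := by
  rw [(h.hX _).map_wp (h.hX M) (h.hk M), hα]

theorem tws (n : ℤ) (hα : α ∈ Tws k) : (fun M => (h.hX M).wp n (α M)) ∈ Tws k := by
  induction hα using Submodule.span_induction with
  | zero => exact mem_of_eq_of_mem (funext fun M => map_zero _) (zero_mem _)
  | add x y _ _ hx hy => exact mem_of_eq_of_mem (funext fun M => map_add _ _ _) (add_mem hx hy)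
  | smul z x _ hx =>
    exact mem_of_eq_of_mem (funext fun M => map_smul ((h.hX M).wp n) z (x M))
      (Submodule.smul_mem _ z hx)
  | mem α hα =>
    obtain ⟨h1, d, h2⟩ := hα
    exact Tws.of (h.map_wp n h1) fun M => (h.hX M).wp_deg n (h2 M)

theorem rst (n : ℤ) {x} (hx : Rst i α x) :
    Rst i (fun M => (h.hX M).wp n (α M)) ((h.hA.wp n).lTensor _ x) := fun M => h.wp M n _ x (hx M)

theorem lf (n : ℤ) {y} (hy : LfK χ k i α y) :
    LfK χ k i (fun M => (h.hX M).wp n (α M)) ((h.hA.wp n).baseChange K y) :=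
  let ⟨a, _, b, c⟩ := hy
  ⟨h.tws n a, _, h.rst n b, c ▸ bc_lTensor _ _⟩

/-- restrictions of classes of weight `n` have weight `n` -/
theorem mem_TyK {x} (hx : LfK χ k i α (inK K A x)) (hα : ∀ M, α M ∈ WT (TX M) n) :
    x ∈ TyK K TA n := by
  obtain ⟨-, z, b, c⟩ := hx
  have := h.rst n b
  rw [funext fun M => (h.hX M).wp_self (hα M)] at this
  refine h.hA.mem_TyK.2 (inK_injective ?_)
  rw [h.hA.inK_we, ← c, ← bc_lTensor, this.unique b]

theorem map_k (hα : ∀ M, H.map (k M) (α (M + 1)) = α M) (M : ℕ) :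
    H.map (incA A M) (H.map (i (M + 1)) (α (M + 1))) = H.map (i M) (α M) := by
  rw [← hα M, H.map_map, H.map_map]
  exact congrArg (H.map · _) (ContinuousMap.ext fun z => (h.k_i M z).symm)

theorem exists_rs (hα : α ∈ Tws k) : ∃ x, Rst i α x := by
  induction hα using Submodule.span_induction with
  | zero => exact ⟨0, Rst.zero⟩
  | add x y _ _ hx hy => exact hx.elim fun _ a => hy.elim fun _ c => ⟨_, a.add c⟩
  | smul z x _ hx => exact hx.elim fun _ a => ⟨_, a.smul z⟩
  | mem α hα =>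
    obtain ⟨h1, d, h2⟩ := hα
    exact (exists_evA (fun M => (h2 M).map (i M)) (h.map_k h1)).imp fun _ e M => (e M).symm

omit h in
variable (χ k i TX) in
/-- the even restrictions of equivariant classes of pure type and weight `n` -/
def Pu (n : ℤ) : Set (K ⊗[ℂ] Hev A) :=
  {x | ∃ α p q, p - q = n ∧ LfK χ k i α (inK K A x) ∧ ∀ M, α M ∈ TX M p q}

theorem wp_mem (hn : Even n) (hα : α ∈ Tws k) : ∀ x, Rst i α x → (h.hA.wp n).baseChange K (bc _ χ x) ∈
    (Submodule.span K (Pu χ k i TX n)).map (inK K A).toLinearMap := by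
  induction hα using Submodule.span_induction with
  | zero => intro x hx; rw [hx.unique Rst.zero, map_zero, map_zero]; exact zero_mem _
  | add a b ha hb ia ib =>
    intro x hx
    obtain ⟨y, hy⟩ := h.exists_rs ha
    obtain ⟨z, hz⟩ := h.exists_rs hb
    rw [hx.unique (hy.add hz), map_add, map_add]
    exact add_mem (ia y hy) (ib z hz)
  | smul c a ha ia =>
    intro x hx
    obtain ⟨y, hy⟩ := h.exists_rs ha
    rw [hx.unique (hy.smul c), map_smul, LinearMap.map_smul_of_tower]
    exact Submodule.smul_of_tower_mem _ c (ia y hy)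
  | mem α hα =>
    intro x hx
    obtain ⟨h1, d, h2⟩ := hα
    have b := h.rst n hx
    rw [← bc_lTensor]
    rcases Int.even_or_odd d with ⟨e, rfl⟩ | hd
    · obtain ⟨m, rfl⟩ := hn
      obtain ⟨z, hz⟩ := exists_evA_ev (d := e) (fun M => ((h.hX M).wp_deg (m + m)
        (two_mul e ▸ h2 M)).map (i M)) (h.map_k (α := fun M => (h.hX M).wp _ (α M)) (h.map_wp _ h1))
      have c : Rst i _ (inH A z) := fun M => (hz M).symm
      refine ⟨bc _ χ z, Submodule.subset_span ⟨_, e + m, e - m, by ring, ⟨Tws.of (h.map_wp _ h1)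
        fun M => (h.hX M).wp_deg _ (h2 M), _, c, (inK_bc z).symm⟩, fun M => ?_⟩,
        (inK_bc z).trans (congrArg _ (c.unique b))⟩
      exact (h.hX M).mem_ty ((h.hX M).wp_deg _ ((show e + e = e + m + (e - m) by ring) ▸ h2 M))
        ((show m + m = e + m - (e - m) by ring) ▸ (h.hX M).wp_mem _ _)
    · rw [funext fun M => (h.hX M).wp_odd (h2 M) (hd.sub_even hn)] at b
      rw [b.unique Rst.zero, map_zero]
      exact zero_mem _

/-- **the classes of weight `n` are spanned by restrictions of classes of pure type** -/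
theorem TyK_eq (full : ∀ x : K ⊗[ℂ] Hev A,
    inK K A x ∈ Submodule.span K {y | ∃ α, LfK χ k i α y}) (n : ℤ) :
    TyK K TA n = Submodule.span K (Pu χ k i TX n) := by
  refine le_antisymm (fun x hx => ?_) (Submodule.span_le.2 fun x ⟨α, p, q, e, a, b⟩ =>
    h.mem_TyK a fun M => mem_WT (b M) e)
  rcases Int.even_or_odd n with hn | hn
  swap
  · rw [h.hA.TyK_odd hn, Submodule.mem_bot] at hx
    exact hx ▸ zero_mem _
  obtain ⟨z, a, b⟩ := (Submodule.span_le (p := ((Submodule.span K (Pu χ k i TX n)).map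
    (inK K A).toLinearMap).comap ((h.hA.wp n).baseChange K))).2
    (fun y hy => hy.elim fun _ a => a.2.elim fun z b => b.2 ▸ h.wp_mem hn a.1 z b.1) (full x)
  rw [← h.hA.inK_we, h.hA.mem_TyK.1 hx] at b
  exact inK_injective b ▸ a

theorem TyK_eq' (full : ∀ x : K ⊗[ℂ] Hev A,
    inK K A x ∈ Submodule.span K {y | ∃ α, LfK χ k i α y}) (n : ℤ) : TyK K TA n =
    Submodule.span K {x | ∃ α, LfK χ k i α (inK K A x) ∧ ∀ M, α M ∈ WT (TX M) n} :=
  le_antisymm ((h.TyK_eq full n).le.trans (Submodule.span_mono fun _ ⟨α, _, _, e, a, b⟩ =>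
    ⟨α, a, fun M => mem_WT (b M) e⟩)) (Submodule.span_le.2 fun _ ⟨_, a, b⟩ => h.mem_TyK a b)

end TW

end Vale.Agent.P287Q.Lam
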